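import Vale.Agent.P283.H329.FMono
import Vale.Agent.P283.H207.Engine
import Mathlib.RingTheory.Invariant.Basic

/-!
The engine for contractions with positive dimensional fibres: only the coordinates `z_j` with `P j`
are regular.
-/

attribute [-instance] ProperSMul.toContinuousSMul IsTopologicalTorsor.toContinuousSMul IdemSemiring.toCanonicallyOrderedAdd IdemSemiring.toMulLeftMono IdemSemiring.toMulRightMono AddQuantale.instAddLeftMono AddQuantale.instAddRightMono Quantale.instMulLeftMono Quantale.instMulRightMono FiniteDimensional.rclike_to_real IsScalarTower.complexToReal FiniteDimensional.complexToReal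

set_option linter.all false
set_option linter.style.haveILetI false

namespace Vale.Agent.P283.H207.F329

open scoped KaehlerDifferential
open MvPolynomial Finset

/-- Data for the engine; only the coordinates `z_j` with `P j` are regular. -/
structure EngineDataP (q k J : ℕ) (P : Fin k → Prop) {K L : Type} [Field K] [Field L]
    [Algebra ℂ K] [Algebra ℂ L] [Algebra K L] (t : Fin q ⊕ Fin k → L) (g : MvPolynomial (Fin k) ℂ) (x0 : L)
    (G G0 : Subgroup (L ≃ₐ[ℂ] L)) (A : Subalgebra ℂ K) : Prop where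
  coords : IsCoords t
  g_ne : g ≠ 0
  g_supp : ∀ μ ∈ g.support, ∀ j, ¬ P j → μ j = 0
  x0_eq : x0 * ∏ l, t (Sum.inl l) = aeval (fun j => t (Sum.inr j)) g
  fin : Finite G
  fix : ∀ f : L, (∀ τ ∈ G, τ f = f) ↔ f ∈ Set.range (algebraMap K L)
  le : G0 ≤ G
  index : G0.relIndex G ≤ J
  diag : ∀ τ ∈ G0, ∀ i, ∃ c : ℂ, τ (t i) = c • t i
  diag0 : ∀ τ ∈ G0, ∃ c : ℂ, τ x0 = c • x0
  sub : ∀ a ∈ A, algebraMap K L a ∈ Algebra.adjoin ℂ
    (insert x0 (Set.range (fun l => t (Sum.inl l)) ∪ {y | ∃ j, P j ∧ y = t (Sum.inr j)}))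
  int0 : IsIntegral A x0
  intl : ∀ l, IsIntegral A (t (Sum.inl l))
  intj : ∀ j, P j → IsIntegral A (t (Sum.inr j))

namespace EngineDataP

variable {q k J : ℕ} {K L : Type} [Field K] [Field L] [Algebra ℂ K] [Algebra ℂ L]
    [Algebra K L] [IsScalarTower ℂ K L] {P : Fin k → Prop} {t : Fin q ⊕ Fin k → L}
    {g : MvPolynomial (Fin k) ℂ} {x0 : L}
    {G G0 : Subgroup (L ≃ₐ[ℂ] L)} {A : Subalgebra ℂ K} (H : EngineDataP q k J P t g x0 G G0 A)
include H

omit [IsScalarTower ℂ K L] in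
theorem isAlgebraic : Algebra.IsAlgebraic K L := by
  haveI : Finite G := H.fin
  haveI : SMulCommClass G K L := ⟨fun τ a b => by
    rw [Algebra.smul_def, Algebra.smul_def, smul_mul']
    congr 1
    exact (H.fix _).2 ⟨a, rfl⟩ τ τ.2⟩
  haveI : Algebra.IsInvariant K L G :=
    ⟨fun b hb => (H.fix b).1 (fun τ hτ => hb ⟨τ, hτ⟩)⟩
  haveI : Algebra.IsIntegral K L := Algebra.IsInvariant.isIntegral K L G
  infer_instance

omit [IsScalarTower ℂ K L] in
theorem essL : Algebra.EssFiniteType ℂ L := H.coords.essFiniteType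

theorem essK : Algebra.EssFiniteType ℂ K := by
  haveI := H.isAlgebraic
  haveI := H.essL
  exact essFiniteType_sub (L := L)

theorem finDim : FiniteDimensional K L := by
  haveI := H.isAlgebraic
  haveI := H.essL
  haveI : Algebra.EssFiniteType K L := Algebra.EssFiniteType.of_comp ℂ K L
  exact Algebra.finite_of_essFiniteType_of_isAlgebraic

omit [IsScalarTower ℂ K L] in
theorem trdegL : Algebra.trdeg ℂ L ≤ ((q + k : ℕ) : Cardinal) := by
  rw [H.coords.trdeg_eq]; simp only [Fintype.card_sum, Fintype.card_fin, Nat.cast_add, Std.le_refl]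

theorem trdegK : Algebra.trdeg ℂ K ≤ ((q + k : ℕ) : Cardinal) :=
  (trdeg_le_of_injective (IsScalarTower.toAlgHom ℂ K L)
    (algebraMap K L).injective).trans H.trdegL

/-- Twisting a valuation by an element of `G`. -/
theorem twist {w : AddValuation L (WithTop ℤ)} {v : AddValuation K (WithTop ℤ)} {e : ℕ}
    (hvw : ∀ f : K, w (algebraMap K L f) = e • v f) {τ : L ≃ₐ[ℂ] L} (hτ : τ ∈ G) (f : K) :
    (w.comap (τ : L →+* L)) (algebraMap K L f) = e • v f := by
  have h1 : τ (algebraMap K L f) = algebraMap K L f := (H.fix _).2 ⟨f, rfl⟩ τ hτ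
  rw [comap_apply', h1, hvw]

omit [IsScalarTower ℂ K L] in
theorem supp_supp : ∀ μ ∈ supp g, ∀ j, ¬ P j → μ j = 0 := by
  classical
  intro μ hμ j hj
  obtain ⟨n, hn, rfl⟩ := Finset.mem_image.1 hμ
  exact H.g_supp n hn j hj

end EngineDataP

namespace EngineDataP

variable {q k J : ℕ} {K L : Type} [Field K] [Field L] [Algebra ℂ K] [Algebra ℂ L]
    [Algebra K L] {P : Fin k → Prop} {t : Fin q ⊕ Fin k → L} {g : MvPolynomial (Fin k) ℂ} {x0 : L}
    {G G0 : Subgroup (L ≃ₐ[ℂ] L)} {A : Subalgebra ℂ K} (H : EngineDataP q k J P t g x0 G G0 A)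
include H

theorem x0_ne : x0 ≠ 0 := x0_ne_zero H.coords H.g_ne H.x0_eq

theorem card_smul_mem (u : Fin q ⊕ Fin k → ℤ) :
    (Nat.card G0 : ℤ) • u ∈ invLattice t H.coords.ne_zero G0 := by
  intro τ hτ
  haveI : Finite G := H.fin
  haveI : Finite G0 := Set.Finite.subset (Set.toFinite (G : Set (L ≃ₐ[ℂ] L))) H.le
  choose χ hχ using H.diag τ hτ
  have h0 := H.coords.ne_zero
  rw [monoT_nsmul, map_pow, map_monoT hχ]
  have h1 : ∀ n : ℕ, (τ ^ n) (monoT t u) = (∏ i, χ i ^ u i) ^ n • monoT t u := by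
    intro n
    induction n with
    | zero => simp only [pow_zero, AlgEquiv.one_apply, Fintype.prod_sum_type, one_smul]
    | succ n ih =>
      rw [pow_succ', AlgEquiv.mul_apply, ih, map_smul, map_monoT hχ, smul_smul, pow_succ]
  have h2 : τ ^ Nat.card G0 = 1 := by
    have h3 : (⟨τ, hτ⟩ : G0) ^ Nat.card G0 = 1 := pow_card_eq_one'
    exact congrArg Subtype.val h3
  have h3 := h1 (Nat.card G0)
  rw [h2, AlgEquiv.one_apply] at h3
  have h4 : (1 : ℂ) = (∏ i, χ i ^ u i) ^ Nat.card G0 := by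
    have h5 : (1 : ℂ) • monoT t u = (∏ i, χ i ^ u i) ^ Nat.card G0 • monoT t u := by
      rw [one_smul]; exact h3
    exact smul_left_injective ℂ (monoT_ne_zero h0 u) h5
  rw [smul_pow, ← h4, one_smul]

/-- If a polynomial in `t` is a semi-invariant then all its monomials have the same character. -/
theorem char_eq {τ : L ≃ₐ[ℂ] L} {χ : Fin q ⊕ Fin k → ℂ} (hχ : ∀ i, τ (t i) = χ i • t i)
    {p : MvPolynomial (Fin q ⊕ Fin k) ℂ} {c : ℂ} (h : τ (aeval t p) = c • aeval t p)
    {m : Fin q ⊕ Fin k →₀ ℕ} (hm : m ∈ p.support) : ∏ i, χ i ^ (m i : ℤ) = c := by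
  classical
  let p' : MvPolynomial (Fin q ⊕ Fin k) ℂ := ∑ n ∈ p.support,
    monomial n ((∏ i, χ i ^ (n i : ℤ)) * p.coeff n)
  have h1 : τ (aeval t p) = aeval t p' := by
    conv_lhs => rw [p.as_sum]
    rw [map_sum, map_sum, map_sum]
    apply Finset.sum_congr rfl
    intro n _
    rw [aeval_monomial, aeval_monomial, Finsupp.prod_fintype _ _ (by simp), map_mul,
      AlgEquiv.commutes]
    have h2 := map_monoT hχ (fun i => (n i : ℤ))
    have h3 : monoT t (fun i => (n i : ℤ)) = ∏ i, t i ^ n i := by simp only [monoT, zpow_natCast, Fintype.prod_sum_type]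
    rw [h3] at h2
    rw [h2, map_mul, Algebra.smul_def]
    ring
  have h2 : aeval t p' = aeval t (C c * p) := by
    rw [← h1, h, map_mul, algHom_C, Algebra.smul_def]
  have h3 := H.coords.ind h2
  have h4 := congrArg (coeff m) h3
  rw [coeff_C_mul] at h4
  have h5 : coeff m p' = (∏ i, χ i ^ (m i : ℤ)) * p.coeff m := by
    simp only [p', coeff_sum, coeff_monomial, Finset.sum_ite_eq', hm, if_true]
  rw [h5] at h4
  exact mul_right_cancel₀ (mem_support_iff.1 hm) h4

/-- Polynomials in the coordinates are stable under `G₀`. -/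
theorem twist_poly {τ : L ≃ₐ[ℂ] L} (hτ : τ ∈ G0) (p : MvPolynomial (Fin q ⊕ Fin k) ℂ) :
    ∃ p' : MvPolynomial (Fin q ⊕ Fin k) ℂ, τ (aeval t p) = aeval t p' := by
  choose χ hχ using H.diag τ hτ
  refine ⟨bind₁ (fun i => C (χ i) * X i) p, ?_⟩
  rw [aeval_bind₁]
  have h1 : τ (aeval t p) = aeval (fun i => τ (t i)) p := by
    have := (MvPolynomial.comp_aeval_apply (f := t) (φ := (τ : L →ₐ[ℂ] L)) p)
    exact this
  rw [h1]
  congr 2
  funext i
  rw [map_mul, algHom_C, aeval_X, hχ, Algebra.smul_def]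

/-- Every function on `X` is a quotient of two `G₀`-invariant polynomials. -/
theorem exists_quot (f : L) (hf0 : f ≠ 0) (hinv : ∀ τ ∈ G0, τ f = f) :
    ∃ p r : MvPolynomial (Fin q ⊕ Fin k) ℂ, p ≠ 0 ∧ r ≠ 0 ∧ f = aeval t p / aeval t r ∧
      (∀ τ ∈ G0, τ (aeval t p) = aeval t p) ∧ (∀ τ ∈ G0, τ (aeval t r) = aeval t r) := by
  classical
  haveI : Finite G := H.fin
  haveI : Finite G0 := Set.Finite.subset (Set.toFinite (G : Set (L ≃ₐ[ℂ] L))) H.le
  letI : Fintype G0 := Fintype.ofFinite _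
  obtain ⟨p, r, hr, hfpr⟩ := H.coords.gen f
  have hr0 := H.coords.aeval_ne_zero hr
  choose R hR using fun τ : G0 => H.twist_poly τ.2 r
  let N : MvPolynomial (Fin q ⊕ Fin k) ℂ := ∏ τ : G0, R τ
  let N' : MvPolynomial (Fin q ⊕ Fin k) ℂ := ∏ τ ∈ (Finset.univ.erase (1 : G0)), R τ
  have hN : aeval t N = ∏ τ : G0, (τ : L ≃ₐ[ℂ] L) (aeval t r) := by
    simp only [N]; rw [map_prod]
    exact Finset.prod_congr rfl fun τ _ => (hR τ).symm
  have hNN : aeval t N = aeval t r * aeval t N' := by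
    simp only [N, N']
    rw [← Finset.mul_prod_erase Finset.univ R (Finset.mem_univ (1 : G0)), map_mul, ← hR 1]
    rfl
  have hN0 : aeval t N ≠ 0 := by
    rw [hN]
    exact Finset.prod_ne_zero_iff.2 fun τ _ => by simpa using hr0
  have hNinv : ∀ τ ∈ G0, τ (aeval t N) = aeval t N := by
    intro τ hτ
    rw [hN, map_prod]
    exact Fintype.prod_equiv (Equiv.mulLeft (⟨τ, hτ⟩ : G0)) _ _ fun σ => rfl
  have hfN : f = aeval t (p * N') / aeval t N := by
    rw [hNN, map_mul, hfpr]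
    have h1 : aeval t N' ≠ 0 := by
      intro h0
      rw [hNN, h0, mul_zero] at hN0
      exact hN0 rfl
    field_simp
  have hpN : aeval t (p * N') = f * aeval t N := by
    rw [hfN]; field_simp
  refine ⟨p * N', N, ?_, ?_, hfN, ?_, hNinv⟩
  · intro h0
    rw [h0, map_zero] at hpN
    exact mul_ne_zero hf0 hN0 hpN.symm
  · intro h0
    rw [h0, map_zero] at hN0
    exact hN0 rfl
  · intro τ hτ
    rw [hpN, map_mul, hinv τ hτ, hNinv τ hτ]

/-- Values of invariant polynomials under a monomial valuation. -/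
theorem lattice_valueZ {w : AddValuation L (WithTop ℤ)} {a : Fin q ⊕ Fin k → ℤ} {g' : ℕ}
    (hw : ∀ p : MvPolynomial (Fin q ⊕ Fin k) ℂ, p ≠ 0 → ∃ m ∈ p.support,
        (g' : ℤ) * ov w (aeval t p) = ∑ i, a i * (m i : ℤ))
    {p : MvPolynomial (Fin q ⊕ Fin k) ℂ} (hp0 : p ≠ 0)
    (hinv : ∀ τ ∈ G0, τ (aeval t p) = aeval t p) :
    ∃ u ∈ invLattice t H.coords.ne_zero G0, (g' : ℤ) * ov w (aeval t p) = ∑ i, a i * u i := by
  obtain ⟨m, hm, hwm⟩ := hw p hp0
  refine ⟨fun i => (m i : ℤ), ?_, hwm⟩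
  intro τ hτ
  choose χ hχ using H.diag τ hτ
  rw [map_monoT hχ, H.char_eq hχ (c := 1) (by rw [hinv τ hτ, one_smul]) hm, one_smul]

theorem exists_norm (F : L) (hF : ∀ τ ∈ G0, τ F = F) (hF0 : F ≠ 0) :
    ∃ φ : K, φ ≠ 0 ∧ ∀ (w : AddValuation L (WithTop ℤ)) (v : AddValuation K (WithTop ℤ)) (e : ℕ),
      (∀ f : K, w (algebraMap K L f) = e • v f) →
      (∀ b : ℤ, (∀ τ ∈ G, b ≤ ov w (τ F)) → (J.factorial : ℤ) * b ≤ e * ov v φ) ∧
      (∀ b : ℤ, (∀ τ ∈ G, ov w (τ F) < b) → e * ov v φ < (J.factorial : ℤ) * b) := by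
  classical
  haveI : Finite G := H.fin
  let S : Subgroup G := G0.subgroupOf G
  haveI : Finite (G ⧸ S) := inferInstance
  letI : Fintype (G ⧸ S) := Fintype.ofFinite _
  let rep : G ⧸ S → (L ≃ₐ[ℂ] L) := fun c => ((Quotient.out c : G) : L ≃ₐ[ℂ] L)
  have hrep : ∀ c, rep c ∈ G := fun c => (Quotient.out c : G).2
  let P : L := ∏ c : G ⧸ S, rep c F
  have hP0 : P ≠ 0 := Finset.prod_ne_zero_iff.2 fun c _ => by
    simpa using hF0
  have hPinv : ∀ τ ∈ G, τ P = P := by
    intro τ hτ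
    simp only [P]
    rw [map_prod]
    apply Fintype.prod_equiv (MulAction.toPerm (⟨τ, hτ⟩ : G))
    intro c
    simp only [MulAction.toPerm_apply]
    -- compare representatives
    have h1 : (QuotientGroup.mk (⟨τ, hτ⟩ * Quotient.out c : G) : G ⧸ S)
        = QuotientGroup.mk (Quotient.out ((⟨τ, hτ⟩ : G) • c)) := by
      rw [QuotientGroup.out_eq']
      conv_rhs => rw [← QuotientGroup.out_eq' c]
      rfl
    have h2 := QuotientGroup.eq.1 h1
    have h3 : (((⟨τ, hτ⟩ * Quotient.out c : G)⁻¹ * Quotient.out ((⟨τ, hτ⟩ : G) • c) : G) :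
        L ≃ₐ[ℂ] L) ∈ G0 := Subgroup.mem_subgroupOf.1 h2
    have h4 := hF _ h3
    simp only [Subgroup.coe_mul, InvMemClass.coe_inv, AlgEquiv.mul_apply] at h4
    have h5 : (τ * rep c) ((τ * rep c)⁻¹ (rep ((⟨τ, hτ⟩ : G) • c) F)) = (τ * rep c) F :=
      congrArg (τ * rep c) h4
    rw [← AlgEquiv.mul_apply, mul_inv_cancel, AlgEquiv.one_apply] at h5
    rw [h5]
    rfl
  set j : ℕ := Nat.card (G ⧸ S) with hj
  have hj0 : 0 < j := Nat.card_pos
  have hjJ : j ≤ J := H.index
  obtain ⟨M, hM⟩ : j ∣ J.factorial := Nat.dvd_factorial hj0 hjJ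
  have hM0 : 0 < M := by
    rcases Nat.eq_zero_or_pos M with h | h
    · rw [h, mul_zero] at hM
      exact absurd hM (Nat.factorial_ne_zero J)
    · exact h
  obtain ⟨φ, hφ⟩ := (H.fix (P ^ M)).1 fun τ hτ => by rw [map_pow, hPinv τ hτ]
  have hφ0 : φ ≠ 0 := by
    rintro rfl
    rw [map_zero] at hφ
    exact pow_ne_zero M hP0 hφ.symm
  refine ⟨φ, hφ0, ?_⟩
  intro w v e hvw
  have key : (e : ℤ) * ov v φ = M * ∑ c, ov w (rep c F) := by
    have h1 := hvw φ
    have h2 : ov w (algebraMap K L φ) = e * ov v φ := by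
      apply ov_eq_of
      rw [h1, ← coe_ov v hφ0, ← WithTop.coe_nsmul]
      simp
    rw [← h2, hφ, ov_pow w hP0]
    congr 1
    exact ov_prod _ _ fun c _ => by simpa using hF0
  have hcard : (Fintype.card (G ⧸ S) : ℤ) = j := by
    rw [hj, Nat.card_eq_fintype_card]
  have hMJ : (J.factorial : ℤ) = M * j := by
    rw [hM]; push_cast; ring
  constructor
  · intro b hb
    rw [key, hMJ, mul_assoc]
    apply mul_le_mul_of_nonneg_left _ (by positivity)
    rw [← hcard]
    have := Finset.card_nsmul_le_sum (Finset.univ : Finset (G ⧸ S)) (fun c => ov w (rep c F)) b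
      fun c _ => hb _ (hrep c)
    simpa only [ge_iff_le, card_univ, Int.nsmul_eq_mul] using this
  · intro b hb
    rw [key, hMJ, mul_assoc]
    apply mul_lt_mul_of_pos_left _ (by exact_mod_cast hM0)
    rw [← hcard]
    haveI : Nonempty (G ⧸ S) := ⟨QuotientGroup.mk 1⟩
    have := Finset.sum_lt_sum_of_nonempty (s := (Finset.univ : Finset (G ⧸ S)))
      (f := fun c => ov w (rep c F)) (g := fun _ => b) Finset.univ_nonempty
      fun c _ => hb _ (hrep c)
    simpa only [gt_iff_lt, sum_const, card_univ, Int.nsmul_eq_mul] using this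

/-- The character of `x₀` equals the character of every monomial of `g` divided by `x₁ ⋯ x_q`. -/
theorem char_x0 {τ : L ≃ₐ[ℂ] L} {χ : Fin q ⊕ Fin k → ℂ}
    (hχ : ∀ i, τ (t i) = χ i • t i) {c : ℂ} (hc : τ x0 = c • x0) {μ : Fin k → ℕ}
    (hμ : μ ∈ supp g) :
    ∏ j, χ (Sum.inr j) ^ (μ j : ℤ) = c * ∏ l, χ (Sum.inl l) := by
  classical
  obtain ⟨n, hn, rfl⟩ := Finset.mem_image.1 hμ
  have h1 : τ (aeval t (rename Sum.inr g)) = (c * ∏ l, χ (Sum.inl l)) • aeval t (rename Sum.inr g) := by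
    rw [← aeval_inr, ← H.x0_eq, map_mul, hc, map_prod]
    simp only [hχ]
    simp only [Algebra.smul_def, Finset.prod_mul_distrib, map_mul, map_prod]
    ring
  have h2 := H.char_eq hχ h1 (m := Finsupp.mapDomain Sum.inr n) (by
    rw [support_rename_of_injective Sum.inr_injective]
    exact Finset.mem_image_of_mem _ hn)
  rw [Fintype.prod_sum_type] at h2
  have h3 : ∀ l : Fin q, (Finsupp.mapDomain (Sum.inr : Fin k → Fin q ⊕ Fin k) n) (Sum.inl l)
      = 0 := by
    intro l
    apply Finsupp.mapDomain_of_notMem_range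
    simp only [Set.mem_range, reduceCtorEq, exists_false, not_false_eq_true]
  simpa only [h3, Finsupp.mapDomain_apply Sum.inr_injective, Nat.cast_zero, zpow_zero,
    Finset.prod_const_one, one_mul] using h2

theorem supp_mem (μ : Fin k → ℕ) (hμ : μ ∈ supp g) (μ' : Fin k → ℕ)
    (hμ' : μ' ∈ supp g) :
    (Sum.elim (fun _ => 0) (fun j => (μ j : ℤ) - μ' j)) ∈
      invLattice t H.coords.ne_zero G0 := by
  intro τ hτ
  choose χ hχ using H.diag τ hτ
  obtain ⟨c, hc⟩ := H.diag0 τ hτ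
  rw [map_monoT hχ]
  have h0 := H.coords.ne_zero
  have h1 := H.char_x0 hχ hc hμ
  have h2 := H.char_x0 hχ hc hμ'
  have h3 : ∏ i, χ i ^ (Sum.elim (fun _ => 0) (fun j => (μ j : ℤ) - μ' j) : Fin q ⊕ Fin k → ℤ) i
      = 1 := by
    rw [Fintype.prod_sum_type]
    simp only [Sum.elim_inl, Sum.elim_inr, zpow_zero, Finset.prod_const_one, one_mul]
    have h4 : ∀ j : Fin k, χ (Sum.inr j) ^ ((μ j : ℤ) - μ' j)
        = χ (Sum.inr j) ^ (μ j : ℤ) * (χ (Sum.inr j) ^ (μ' j : ℤ))⁻¹ := by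
      intro j
      rw [zpow_sub₀ (char_ne_zero h0 hχ _), div_eq_mul_inv]
    simp only [h4, Finset.prod_mul_distrib, Finset.prod_inv_distrib]
    rw [h1, ← h2]
    apply mul_inv_cancel₀
    exact Finset.prod_ne_zero_iff.2 fun j _ => zpow_ne_zero _ (char_ne_zero h0 hχ _)
  rw [h3, one_smul]

theorem phi_inv (s : ℕ × (Fin q ⊕ Fin k → ℤ))
    (hs : ∀ μ ∈ supp g, s.2 + (s.1 : ℤ) • Sum.elim (fun _ => (-1 : ℤ)) (fun j => (μ j : ℤ)) ∈
      invLattice t H.coords.ne_zero G0) (τ : L ≃ₐ[ℂ] L) (hτ : τ ∈ G0) :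
    τ (phi t x0 s) = phi t x0 s := by
  classical
  have h0 := H.coords.ne_zero
  obtain ⟨μ, hμ⟩ : (supp g).Nonempty := by
    obtain ⟨n, hn⟩ := support_nonempty.2 H.g_ne
    exact ⟨_, Finset.mem_image_of_mem _ hn⟩
  choose χ hχ using H.diag τ hτ
  obtain ⟨c, hc⟩ := H.diag0 τ hτ
  have h1 := hs μ hμ τ hτ
  set U : Fin q ⊕ Fin k → ℤ := Sum.elim (fun _ => (-1 : ℤ)) (fun j => (μ j : ℤ)) with hU
  rw [map_monoT hχ] at h1
  have h2 : ∏ i, χ i ^ (s.2 + (s.1 : ℤ) • U) i = 1 := by
    have h3 : (1 : ℂ) • monoT t (s.2 + (s.1 : ℤ) • U)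
        = (∏ i, χ i ^ (s.2 + (s.1 : ℤ) • U) i) • monoT t (s.2 + (s.1 : ℤ) • U) := by
      rw [one_smul]; exact h1.symm
    exact (smul_left_injective ℂ (monoT_ne_zero h0 _) h3).symm
  have h3 := H.char_x0 hχ hc hμ
  have hc' : c * ∏ l, χ (Sum.inl l) ≠ 0 := by
    rw [← h3]
    exact Finset.prod_ne_zero_iff.2 fun j _ => zpow_ne_zero _ (char_ne_zero h0 hχ _)
  have h4 : (∏ i, χ i ^ s.2 i) * c ^ s.1 = 1 := by
    rw [← h2]
    have h5 : ∀ i, χ i ^ (s.2 + (s.1 : ℤ) • U) i = χ i ^ s.2 i * (χ i ^ U i) ^ s.1 := by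
      intro i
      rw [Pi.add_apply, zpow_add₀ (char_ne_zero h0 hχ _), Pi.smul_apply, smul_eq_mul, mul_comm
        (s.1 : ℤ), zpow_mul, zpow_natCast]
    simp only [h5, Finset.prod_mul_distrib, Finset.prod_pow]
    congr 2
    rw [Fintype.prod_sum_type]
    simp only [hU, Sum.elim_inl, Sum.elim_inr]
    rw [h3]
    simp only [zpow_neg, zpow_one, Finset.prod_inv_distrib]
    have h6 : ∏ l, χ (Sum.inl l) ≠ 0 := right_ne_zero_of_mul hc'
    field_simp
  unfold phi
  have h5 := map_monoT hχ (t := t) s.2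
  unfold monoT at h5
  rw [map_mul, map_pow, hc, h5, smul_pow, smul_mul_smul_comm, mul_comm (c ^ s.1), h4, one_smul]

theorem one_add_phi_ne_zero
    {s : ℕ × (Fin q ⊕ Fin k → ℤ)} (hs : s.1 = 0 ∨ ∃ l, s.2 (Sum.inl l) = 0) :
    1 + phi t x0 s ≠ 0 := by
  haveI : CharZero L := charZero_of_injective_algebraMap (algebraMap ℂ L).injective
  obtain ⟨B', hB'⟩ := exists_kaehler_basis t H.coords.isTranscendenceBasis
  intro h
  have h2 : phi t x0 s = -1 := by linear_combination h
  rcases eig_phi H.coords B' hB' H.x0_eq s hs with h3 | ⟨i, α, hα, h3⟩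
  · rw [h2] at h3
    have h5 : (2 : L) = 0 := by linear_combination -h3
    exact two_ne_zero h5
  · unfold Eig at h3
    rw [h2, map_neg, Derivation.map_one_eq_zero] at h3
    have : (α : L) = 0 := by linear_combination h3
    exact hα (by exact_mod_cast this)

/-- The lower bound for a section used for effectivity. -/
theorem phi_lower {w : AddValuation L (WithTop ℤ)}
    (h1 : ∀ l, 0 ≤ ov w (t (Sum.inl l))) (h0 : 0 ≤ ov w x0) {σ : ℝ} (hσ0 : 0 ≤ σ)
    {s : ℕ × (Fin q ⊕ Fin k → ℤ)} (hs1 : ∀ l, 0 ≤ s.2 (Sum.inl l))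
    (hs2 : -σ ≤ ∑ j, (s.2 (Sum.inr j) : ℝ) * ov w (t (Sum.inr j))) (hne : 1 + phi t x0 s ≠ 0) :
    -σ ≤ ((ov w (1 + phi t x0 s) : ℤ) : ℝ) := by
  have hφ0 := phi_ne_zero H.coords H.x0_ne s
  have h2 : -σ ≤ ((ov w (phi t x0 s) : ℤ) : ℝ) := by
    rw [ov_phi H.coords H.x0_ne, Fintype.sum_sum_type]
    push_cast
    have h3 : 0 ≤ (s.1 : ℝ) * ov w x0 := mul_nonneg (by (clear * -; positivity)) (by exact_mod_cast h0)
    have h4 : 0 ≤ ∑ l, (s.2 (Sum.inl l) : ℝ) * ov w (t (Sum.inl l)) :=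
      Finset.sum_nonneg fun l _ => mul_nonneg (by exact_mod_cast hs1 l) (by exact_mod_cast h1 _)
    linarith only [h3, h4, hs2]
  have h3 : min 0 (ov w (phi t x0 s)) ≤ ov w (1 + phi t x0 s) := by
    have h4 := AddValuation.map_add w 1 (phi t x0 s)
    rw [AddValuation.map_one, ← coe_ov w hφ0, ← coe_ov w hne] at h4
    exact_mod_cast h4
  have h4 : ((min 0 (ov w (phi t x0 s)) : ℤ) : ℝ) ≤ ((ov w (1 + phi t x0 s) : ℤ) : ℝ) := by
    exact_mod_cast h3
  refine le_trans ?_ h4
  push_cast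
  exact le_min (by linarith only [hσ0]) h2

end EngineDataP

/-- A sublinear function which is at least `ε` at all nonzero points of `ℕ^k` is positive on the
nonzero vectors of the positive orthant. -/
theorem pos_of_latticeP {k : ℕ} (P : Fin k → Prop) (Ψ : (Fin k → ℝ) → ℝ) (hs : IsSub Ψ) (K : ℝ) (hK0 : 0 ≤ K)
    (hK : ∀ (y : Fin k → ℝ) (δ : ℝ), 0 ≤ δ → (∀ j, |y j| ≤ δ) → Ψ y ≤ K * δ) (ε : ℝ) (hε : 0 < ε)
    (h : ∀ a : Fin k → ℤ, (∀ j, P j → 0 ≤ a j) → a ≠ 0 → ε ≤ Ψ fun j => (a j : ℝ))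
    (y : Fin k → ℝ) (hy : ∀ j, P j → 0 ≤ y j)
    (hy0 : y ≠ 0) : 0 < Ψ y := by
  by_contra hcon
  push Not at hcon
  obtain ⟨j0, hj0⟩ := Function.ne_iff.1 hy0
  have hj0' : 0 < |y j0| := abs_pos.2 hj0
  obtain ⟨δ, hδ, hδ1, hδ2⟩ : ∃ δ : ℝ, 0 < δ ∧ δ < |y j0| ∧ K * δ < ε := by
    refine ⟨min (|y j0| / 2) (ε / (2 * (K + 1))), ?_, ?_, ?_⟩
    · apply lt_min (by linarith)
      positivity
    · exact lt_of_le_of_lt (min_le_left _ _) (by linarith)
    · have h1 : K * min (|y j0| / 2) (ε / (2 * (K + 1))) ≤ K * (ε / (2 * (K + 1))) :=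
        mul_le_mul_of_nonneg_left (min_le_right _ _) hK0
      have h2 : K * (ε / (2 * (K + 1))) ≤ (K + 1) * (ε / (2 * (K + 1))) :=
        mul_le_mul_of_nonneg_right (by linarith) (by positivity)
      have h3 : (K + 1) * (ε / (2 * (K + 1))) = ε / 2 := by
        have : K + 1 ≠ 0 := by positivity
        field_simp
      linarith
  let u : ℕ → Fin k → ℝ := fun n j => Int.fract (n * y j)
  have hu : ∀ n, u n ∈ Set.Icc (0 : Fin k → ℝ) 1 := fun n =>
    ⟨fun j => Int.fract_nonneg _, fun j => (Int.fract_lt_one _).le⟩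
  obtain ⟨l, -, φ, hφ, hl⟩ := isCompact_Icc.tendsto_subseq hu
  have hc := hl.cauchySeq
  rw [Metric.cauchySeq_iff] at hc
  obtain ⟨N, hN⟩ := hc δ hδ
  have hlt : φ N < φ (N + 1) := hφ (Nat.lt_succ_self N)
  have hd := hN (N + 1) (Nat.le_succ N) N le_rfl
  have hd' : ∀ j, |u (φ (N + 1)) j - u (φ N) j| < δ := by
    intro j
    have h1 := dist_le_pi_dist ((u ∘ φ) (N + 1)) ((u ∘ φ) N) j
    rw [Real.dist_eq] at h1
    exact lt_of_le_of_lt h1 hd
  set m := φ (N + 1) with hm
  set n := φ N with hn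
  have hmn : ∀ j, P j → ⌊(n : ℝ) * y j⌋ ≤ ⌊(m : ℝ) * y j⌋ := fun j hj =>
    Int.floor_le_floor (mul_le_mul_of_nonneg_right (by exact_mod_cast hlt.le) (hy j hj))
  let a : Fin k → ℤ := fun j => ⌊(m : ℝ) * y j⌋ - ⌊(n : ℝ) * y j⌋
  have ha : ∀ j, (a j : ℝ) = (⌊(m : ℝ) * y j⌋ : ℝ) - ⌊(n : ℝ) * y j⌋ := by
    intro j
    simp only [a]
    push_cast
    rfl
  have hp : (1 : ℝ) ≤ (m : ℝ) - n := by
    have : (n : ℝ) + 1 ≤ m := by exact_mod_cast hlt
    linarith
  let err : Fin k → ℝ := fun j => a j - ((m : ℝ) - n) * y j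
  have herr : ∀ j, |err j| ≤ δ := by
    intro j
    have h1 : err j = -(u m j - u n j) := by
      have h2 : u m j = (m : ℝ) * y j - ⌊(m : ℝ) * y j⌋ := rfl
      have h3 : u n j = (n : ℝ) * y j - ⌊(n : ℝ) * y j⌋ := rfl
      simp only [err]
      rw [ha, h2, h3]; ring
    rw [h1, abs_neg]
    exact (hd' j).le
  have ha0 : a ≠ 0 := by
    intro h0
    have h1 := herr j0
    have h2 : (a j0 : ℝ) = 0 := by rw [h0]; simp
    simp only [err, h2, zero_sub, abs_neg] at h1
    rw [abs_mul, abs_of_nonneg (by linarith : (0 : ℝ) ≤ (m : ℝ) - n)] at h1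
    nlinarith
  have h1 := h a (fun j hj => sub_nonneg.2 (hmn j hj)) ha0
  have h2 : (fun j => (a j : ℝ)) = ((m : ℝ) - n) • y + err := by
    ext j
    simp only [Pi.add_apply, Pi.smul_apply, smul_eq_mul, err]
    ring
  rw [h2] at h1
  have h3 := hs.add (((m : ℝ) - n) • y) err
  rw [hs.smul _ _ (by linarith)] at h3
  have h4 := hK err δ hδ.le herr
  have h5 : ((m : ℝ) - n) * Ψ y ≤ 0 := mul_nonpos_of_nonneg_of_nonpos (by linarith) hcon
  linarith

/-- **Core positivity.** -/
theorem core_positivityP {q k : ℕ} {L : Type} [Field L] [Algebra ℂ L] {P : Fin k → Prop}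
    {t : Fin q ⊕ Fin k → L} (hd : 0 < q + k) (ht : IsCoords t) {g : MvPolynomial (Fin k) ℂ}
    (hg : g ≠ 0) {x0 : L}
    (hx0 : x0 * ∏ l, t (Sum.inl l) = aeval (fun j => t (Sum.inr j)) g)
    {w : AddValuation L (WithTop ℤ)} (hw : IsDivisorial (q + k) w) (h1 : ∀ l, 0 ≤ w (t (Sum.inl l)))
    (h1r : ∀ j, P j → 0 ≤ w (t (Sum.inr j)))
    (h0 : 0 ≤ w x0) {m : ℤ} (hm : FormOrder (q + k) w (logForm t) m)
    (Ls : List (ℕ × (Fin q ⊕ Fin k → ℤ))) (hL : Ls.length = 2 * (q + k))
    (hLs : ∀ s ∈ Ls, s.1 = 0 ∨ ∃ l, s.2 (Sum.inl l) = 0)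
    (hneg : ∀ x : Fin q ⊕ Fin k → ℝ, InConeP P (supp g) x → x ≠ 0 → ∃ s ∈ Ls, ∀ γ : ℝ,
        (∀ μ ∈ supp g, γ ≤ ∑ j, μ j * x (Sum.inr j)) →
          s.1 * (γ - ∑ l, x (Sum.inl l)) + ∑ i, (s.2 i) * x i < 0)
    (N : ℤ) (hN : 2 * (q + k) < N) :
    (∀ s ∈ Ls, 1 + phi t x0 s ≠ 0) ∧
    (Ls.map fun s => ov w (1 + phi t x0 s)).sum < N * (m + 1) := by
  classical
  haveI := ht.essFiniteType
  haveI : CharZero L := charZero_of_injective_algebraMap (algebraMap ℂ L).injective
  have htr : Algebra.trdeg ℂ L ≤ ((q + k : ℕ) : Cardinal) := by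
    rw [ht.trdeg_eq]; simp only [Fintype.card_sum, Fintype.card_fin, Nat.cast_add, Std.le_refl]
  obtain ⟨B', hB'⟩ := exists_kaehler_basis t ht.isTranscendenceBasis
  let E : Fin (q + k) ≃ Fin q ⊕ Fin k := (finSumFinEquiv (m := q) (n := k)).symm
  let B := B'.reindex E.symm
  have hB : ∀ i, B i = KaehlerDifferential.D ℂ L ((t ∘ E) i) := by
    intro i
    simp only [B, Module.Basis.reindex_apply, Equiv.symm_symm, hB', Function.comp]
  have hpd : ∀ i, pd B i = pd B' (E i) := by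
    intro i
    ext f
    simp only [pd_apply, B, Module.Basis.repr_reindex_apply, Equiv.symm_symm]
  have htt : ∀ i, (t ∘ E) i ≠ 0 := fun i => ht.ne_zero _
  have hm' : FormOrder (q + k) w (dlogForm (t ∘ E)) m := hm
  have hm1 := dlog_order hd htr hw _ htt hm'
  have hx00 := x0_ne_zero ht hg hx0
  have hθ : ∀ i f, w f ≤ w (t i * pd B' i f) + ((m + 1 : ℤ) : WithTop ℤ) := by
    intro i f
    have := dlog_derivation hd htr hw htt B hB hm' (E.symm i) f
    rw [hpd] at this
    simpa only [AddValuation.map_mul, WithTop.coe_add, WithTop.coe_one, ge_iff_le, Function.comp_apply,     Equiv.apply_symm_apply] using this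
  -- each factor
  have hone : ∀ s ∈ Ls, 1 + phi t x0 s ≠ 0 ∧ ov w (1 + phi t x0 s) ≤ m + 1 ∧
      (ov w (phi t x0 s) < 0 → ov w (1 + phi t x0 s) < 0) := by
    intro s hs
    have hφ0 := phi_ne_zero ht hx00 s
    have hne : 1 + phi t x0 s ≠ 0 := by
      intro h
      have h2 : phi t x0 s = -1 := by linear_combination h
      rcases eig_phi ht B' hB' hx0 s (hLs s hs) with h3 | ⟨i, α, hα, h3⟩
      · rw [h2] at h3
        have h5 : (2 : L) = 0 := by linear_combination -h3
        exact two_ne_zero h5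
      · unfold Eig at h3
        rw [h2, map_neg, Derivation.map_one_eq_zero] at h3
        have : (α : L) = 0 := by linear_combination h3
        exact hα (by exact_mod_cast this)
    refine ⟨hne, ?_, ?_⟩
    · rcases lt_trichotomy (ov w (phi t x0 s)) 0 with h | h | h
      · have h2 : w (1 + phi t x0 s) = w (phi t x0 s) := by
          apply AddValuation.map_add_eq_of_lt_right
          rw [AddValuation.map_one, ← coe_ov w hφ0]
          exact_mod_cast h
        have h3 : ov w (1 + phi t x0 s) = ov w (phi t x0 s) := by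
          unfold ov; rw [h2]
        omega
      · rcases eig_phi ht B' hB' hx0 s (hLs s hs) with h3 | ⟨i, α, hα, h3⟩
        · rw [h3]
          have h4 : ov w (1 + 1 : L) = 0 := by
            apply ov_eq_of
            have : (1 + 1 : L) = algebraMap ℂ L 2 := by rw [map_ofNat]; norm_num
            rw [this, hw.const 2 (by norm_num)]; rfl
          rw [h4]; omega
        · have h4 := one_add_le hd htr hw htt B hB hm' (E.symm i) (phi t x0 s) (α : ℂ)
            (by exact_mod_cast hα) ?_ ?_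
          · rw [← coe_ov w hne] at h4
            exact_mod_cast h4
          · rw [hpd]
            simpa only [Function.comp_apply, Equiv.apply_symm_apply, map_intCast, Eig] using h3
          · rw [← coe_ov w hφ0, h]; rfl
      · have h2 : w (1 + phi t x0 s) = w 1 := by
          apply AddValuation.map_add_eq_of_lt_left
          rw [AddValuation.map_one, ← coe_ov w hφ0]
          exact_mod_cast h
        have h3 : ov w (1 + phi t x0 s) = 0 := by
          apply ov_eq_of
          rw [h2, AddValuation.map_one]; rfl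
        omega
    · intro h
      have h2 : w (1 + phi t x0 s) = w (phi t x0 s) := by
        apply AddValuation.map_add_eq_of_lt_right
        rw [AddValuation.map_one, ← coe_ov w hφ0]
        exact_mod_cast h
      have h3 : ov w (1 + phi t x0 s) = ov w (phi t x0 s) := by
        unfold ov; rw [h2]
      omega
  refine ⟨fun s hs => (hone s hs).1, ?_⟩
  rcases lt_or_eq_of_le hm1 with hlt | heq
  · -- positive log order
    have h2 := list_sum_le Ls (fun s => ov w (1 + phi t x0 s)) (m + 1) fun s hs => (hone s hs).2.1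
    rw [hL] at h2
    have h3 : (0 : ℤ) < m + 1 := by omega
    push_cast at h2
    nlinarith only [hlt, h2, hN]
  · -- log order zero: `w` is monomial
    have hm0 : m + 1 = 0 := by omega
    rw [hm0, mul_zero]
    apply list_sum_neg
    · intro s hs
      have := (hone s hs).2.1
      omega
    · have hθ0 : ∀ i f, w f ≤ w (t i * pd B' i f) := by
        intro i f
        have := hθ i f
        rw [hm0] at this
        simpa only [AddValuation.map_mul, ge_iff_le, WithTop.coe_zero, add_zero] using this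
      have hmon : ∀ p : MvPolynomial (Fin q ⊕ Fin k) ℂ, ∀ n ∈ p.support,
          ov w (aeval t p) ≤ ∑ j, (n j : ℤ) * ov w (t j) := by
        intro p n hn
        have hp0 : p ≠ 0 := by
          rintro rfl
          simp at hn
        have h2 := val_le_monomial B' hB' hw.const hθ0 p.support.card p le_rfl n hn
        rw [le_le_iff w (ht.aeval_ne_zero hp0) (Finset.prod_ne_zero_iff.2 fun j _ =>
          pow_ne_zero _ (ht.ne_zero j)), ov_prod _ _ fun j _ => pow_ne_zero _ (ht.ne_zero j)] at h2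
        refine h2.trans (le_of_eq ?_)
        apply Finset.sum_congr rfl
        intro j _
        rw [ov_pow w (ht.ne_zero j)]
      let x : Fin q ⊕ Fin k → ℝ := fun i => (ov w (t i) : ℝ)
      have hgr0 : rename (Sum.inr : Fin k → Fin q ⊕ Fin k) g ≠ 0 := by
        intro h
        exact hg (rename_injective _ Sum.inr_injective (by rw [h, map_zero]))
      have hgov : ov w (aeval (fun j => t (Sum.inr j)) g) = ov w x0 + ∑ l, ov w (t (Sum.inl l)) := by
        rw [← hx0, ov_mul w hx00 (Finset.prod_ne_zero_iff.2 fun l _ => ht.ne_zero _),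
          ov_prod _ _ fun l _ => ht.ne_zero _]
      have hx0n : 0 ≤ ov w x0 := (nonneg_iff w hx00).1 h0
      have hgle : ∀ μ ∈ supp g, ov w (aeval (fun j => t (Sum.inr j)) g)
          ≤ ∑ j, (μ j : ℤ) * ov w (t (Sum.inr j)) := by
        intro μ hμ
        obtain ⟨n, hn, rfl⟩ := Finset.mem_image.1 hμ
        have h2 := hmon (rename Sum.inr g) (n.mapDomain Sum.inr) (by
          rw [support_rename_of_injective Sum.inr_injective]
          exact Finset.mem_image_of_mem _ hn)
        rw [← aeval_inr] at h2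
        refine h2.trans (le_of_eq ?_)
        rw [Fintype.sum_sum_type]
        have h3 : ∀ l : Fin q, (Finsupp.mapDomain (Sum.inr : Fin k → Fin q ⊕ Fin k) n) (Sum.inl l)
            = 0 := by
          intro l
          apply Finsupp.mapDomain_of_notMem_range
          simp only [Set.mem_range, reduceCtorEq, exists_false, not_false_eq_true]
        simp only [h3, Finsupp.mapDomain_apply Sum.inr_injective]
        simp only [CharP.cast_eq_zero, zero_mul, sum_const_zero, zero_add]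
      have hxc : InConeP P (supp g) x := by
        refine ⟨?_, ?_, ?_⟩
        · intro l
          have := (nonneg_iff w (ht.ne_zero _)).1 (h1 l)
          simp only [x]
          exact_mod_cast this
        · intro j hj
          have := (nonneg_iff w (ht.ne_zero _)).1 (h1r j hj)
          simp only [x]
          exact_mod_cast this
        · intro μ hμ
          have h2 := hgle μ hμ
          rw [hgov] at h2
          have h3 : ∑ l, ov w (t (Sum.inl l)) ≤ ∑ j, (μ j : ℤ) * ov w (t (Sum.inr j)) := by omega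
          unfold mdot
          simp only [x]
          exact_mod_cast h3
      have hxne : x ≠ 0 := by
        intro hx
        have hz : ∀ i, ov w (t i) = 0 := by
          intro i
          have := congrFun hx i
          simp only [x, Pi.zero_apply] at this
          exact_mod_cast this
        have hpol : ∀ p : MvPolynomial (Fin q ⊕ Fin k) ℂ, p ≠ 0 → ov w (aeval t p) = 0 := by
          intro p hp
          obtain ⟨n, hn⟩ := support_nonempty.2 hp
          have h2 := hmon p n hn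
          simp only [hz, mul_zero, Finset.sum_const_zero] at h2
          have h3 : 0 ≤ w (aeval t p) := aeval_nonneg hw.const (fun i => (nonneg_iff w (ht.ne_zero i)).2 (hz i).ge) p
          rw [nonneg_iff w (ht.aeval_ne_zero hp)] at h3
          omega
        obtain ⟨f, hf⟩ := hw.normalized
        obtain ⟨p, r, hr, rfl⟩ := ht.gen f
        have hf0 : aeval t p / aeval t r ≠ 0 := ne_zero_of_eq w (n := 1) (by simpa only [AddValuation.map_div, WithTop.coe_one] using hf)
        have hp : p ≠ 0 := by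
          rintro rfl
          simp at hf0
        have h2 : ov w (aeval t p / aeval t r) = 0 := by
          rw [ov_div w (ht.aeval_ne_zero hp) (ht.aeval_ne_zero hr), hpol p hp, hpol r hr]
          ring
        have h3 : ov w (aeval t p / aeval t r) = 1 := ov_eq_of w (n := 1) (by simpa only [AddValuation.map_div, WithTop.coe_one] using hf)
        omega
      obtain ⟨s, hs, hs2⟩ := hneg x hxc hxne
      refine ⟨s, hs, (hone s hs).2.2 ?_⟩
      rw [ov_phi ht hx00]
      have h4 := hs2 (ov w (aeval (fun j => t (Sum.inr j)) g)) (by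
        intro μ hμ
        have := hgle μ hμ
        simp only [x]
        exact_mod_cast this)
      simp only [x] at h4
      have h5 : (s.1 : ℤ) * (ov w (aeval (fun j => t (Sum.inr j)) g)
          - ∑ l, ov w (t (Sum.inl l))) + ∑ i, s.2 i * ov w (t i) < 0 := by exact_mod_cast h4
      rw [hgov] at h5
      simpa only [Fintype.sum_sum_type, gt_iff_lt, add_sub_cancel_right] using h5

section

variable {q k J : ℕ} {K L : Type} [Field K] [Field L] [Algebra ℂ K] [Algebra ℂ L]
    [Algebra K L] [IsScalarTower ℂ K L] {P : Fin k → Prop} {t : Fin q ⊕ Fin k → L} {g : MvPolynomial (Fin k) ℂ}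
    {x0 : L} {G G0 : Subgroup (L ≃ₐ[ℂ] L)} {A : Subalgebra ℂ K}
    (H : EngineDataP q k J P t g x0 G G0 A)
    {ω : ⋀[K]^(q + k) (Ω[K⁄ℂ])} {h : L}
include H

theorem psi_boundP (hd : 0 < q + k) {ε : ℝ} (hε : 0 < ε) (hω : ω ≠ 0) (hh : h ≠ 0)
    (hpull : IsPullback ω (h • logForm t)) {ι : Type} [Fintype ι] [Nonempty ι]
    (c : ι → Fin k → ℚ)
    (hlc : ∀ (v : AddValuation K (WithTop ℤ)) (w : AddValuation L (WithTop ℤ)) (e : ℕ) (m : ℤ),
      IsDivisorial (q + k) v → IsOver A v → FormOrder (q + k) v ω m → 0 < e → (∃ f, w f = 1) →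
      (∀ f : K, w (algebraMap K L f) = e • v f) →
      (e : ℝ) * ε ≤ e * (1 + m) - ov w h + PsiF c fun j => (ov w (t (Sum.inr j)) : ℝ))
    (x : Fin q ⊕ Fin k → ℝ) (hx : InConeP P (supp g) x)
    (hxM : ∀ u ∈ invLattice t H.coords.ne_zero G0, ∃ z : ℤ, ∑ i, x i * u i = z) (hx0 : x ≠ 0) :
    ε ≤ PsiF c fun j => x (Sum.inr j) := by
  classical
  haveI := H.isAlgebraic
  haveI := H.essL
  haveI := H.essK
  haveI := H.finDim
  haveI : Finite G := H.fin
  haveI : Finite G0 := Set.Finite.subset (Set.toFinite (G : Set (L ≃ₐ[ℂ] L))) H.le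
  haveI : CharZero K := charZero_of_injective_algebraMap (algebraMap ℂ K).injective
  set r0 := Nat.card G0 with hr0
  have hr0pos : 0 < r0 := Nat.card_pos
  -- the integral weight vector
  have hxi : ∀ i, ∃ a : ℤ, (a : ℝ) = r0 * x i := by
    intro i
    obtain ⟨z, hz⟩ := hxM _ (H.card_smul_mem (Pi.single i 1))
    have h1 : ∑ j, x j * (((r0 : ℤ) • (Pi.single i 1 : Fin q ⊕ Fin k → ℤ)) j : ℤ) = r0 * x i := by
      rw [Finset.sum_eq_single i]
      · simp [mul_comm]
      · intro j _ hj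
        simp [Pi.single_eq_of_ne hj]
      · simp only [mem_univ, not_true_eq_false, Pi.smul_apply, Pi.single_eq_same, Int.zsmul_eq_mul, mul_one, Int.cast_natCast, mul_eq_zero, Nat.cast_eq_zero, IsEmpty.forall_iff]
    exact ⟨z, by rw [← hz, ← h1]⟩
  choose a ha using hxi
  have hal : ∀ l, 0 ≤ a (Sum.inl l) := by
    intro l
    have h1 : (0 : ℝ) ≤ (a (Sum.inl l) : ℝ) := by
      rw [ha]; exact mul_nonneg (by positivity) (hx.1 l)
    exact_mod_cast h1
  have har : ∀ j, P j → 0 ≤ a (Sum.inr j) := by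
    intro j hj
    have h1 : (0 : ℝ) ≤ (a (Sum.inr j) : ℝ) := by
      rw [ha]; exact mul_nonneg (by positivity) (hx.2.1 j hj)
    exact_mod_cast h1
  have ha0 : a ≠ 0 := by
    intro h0
    apply hx0
    ext i
    have h1 := ha i
    rw [h0] at h1
    simp only [Pi.zero_apply, Int.cast_zero, zero_eq_mul] at h1
    rcases h1 with h1 | h1
    · exact absurd (by exact_mod_cast h1) hr0pos.ne'
    · simpa using h1
  obtain ⟨w, g', hg', hw, hwΩ, hwp⟩ := exists_monomial_onZ hd H.coords a ha0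
  obtain ⟨v, e, he, hv, hvw⟩ := exists_restriction (K := K) (q + k) w hw
  -- values of the coordinates
  have hwt : ∀ i, (g' : ℤ) * ov w (t i) = a i := by
    intro i
    obtain ⟨m, hm, h1, -⟩ := hwp (X i) (X_ne_zero i)
    rw [aeval_X] at h1
    rw [support_X, Finset.mem_singleton] at hm
    rw [h1, hm, Finset.sum_eq_single i]
    · simp
    · intro j _ hj
      simp [Ne.symm hj]
    · simp only [mem_univ, not_true_eq_false, Finsupp.single_eq_same, Nat.cast_one, mul_one, Int.natCast_eq_zero, IsEmpty.forall_iff]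
  have hwt0 : ∀ i, 0 ≤ a i → 0 ≤ ov w (t i) := by
    intro i hai
    have h1 := hwt i
    have h2 : (0 : ℤ) < g' := by exact_mod_cast hg'
    by_contra hcon
    push Not at hcon
    have : (g' : ℤ) * ov w (t i) < 0 := mul_neg_of_pos_of_neg h2 hcon
    omega
  have hwx0 : 0 ≤ ov w x0 := by
    have hgr0 : rename (Sum.inr : Fin k → Fin q ⊕ Fin k) g ≠ 0 := by
      intro h
      exact H.g_ne (rename_injective _ Sum.inr_injective (by rw [h, map_zero]))
    obtain ⟨m, hm, h1, -⟩ := hwp (rename Sum.inr g) hgr0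
    rw [← aeval_inr, ← H.x0_eq, ov_mul w H.x0_ne (Finset.prod_ne_zero_iff.2 fun l _ =>
      H.coords.ne_zero _), ov_prod _ _ fun l _ => H.coords.ne_zero _, mul_add, Finset.mul_sum] at h1
    simp only [hwt] at h1
    rw [support_rename_of_injective Sum.inr_injective] at hm
    obtain ⟨n, hn, rfl⟩ := Finset.mem_image.1 hm
    rw [Fintype.sum_sum_type] at h1
    have h3 : ∀ l : Fin q, (Finsupp.mapDomain (Sum.inr : Fin k → Fin q ⊕ Fin k) n) (Sum.inl l)
        = 0 := by
      intro l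
      apply Finsupp.mapDomain_of_notMem_range
      simp only [Set.mem_range, reduceCtorEq, exists_false, not_false_eq_true]
    simp only [h3, Finsupp.mapDomain_apply Sum.inr_injective] at h1
    have h4 := hx.2.2 (n : Fin k → ℕ) (Finset.mem_image_of_mem _ hn)
    unfold mdot at h4
    have h5 : (r0 : ℝ) * ∑ l, x (Sum.inl l) ≤ (r0 : ℝ) * ∑ j, (n j : ℝ) * x (Sum.inr j) :=
      mul_le_mul_of_nonneg_left h4 (by positivity)
    rw [Finset.mul_sum, Finset.mul_sum] at h5
    have h6 : ∑ l, (a (Sum.inl l) : ℝ) ≤ ∑ j, (n j : ℝ) * (a (Sum.inr j) : ℝ) := by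
      refine le_trans (le_of_eq ?_) (h5.trans (le_of_eq ?_))
      · exact Finset.sum_congr rfl fun l _ => ha _
      · refine Finset.sum_congr rfl fun j _ => ?_
        rw [ha]; ring
    have h7 : ∑ l, a (Sum.inl l) ≤ ∑ j, (n j : ℤ) * a (Sum.inr j) := by exact_mod_cast h6
    have h8 : ∑ j, a (Sum.inr j) * (n j : ℤ) = ∑ j, (n j : ℤ) * a (Sum.inr j) :=
      Finset.sum_congr rfl fun j _ => mul_comm _ _
    simp only [Nat.cast_zero, mul_zero, Finset.sum_const_zero, zero_add, h8] at h1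
    have h9 : 0 ≤ (g' : ℤ) * ov w x0 := by omega
    have h10 : (0 : ℤ) < g' := by exact_mod_cast hg'
    by_contra hcon
    push Not at hcon
    have : (g' : ℤ) * ov w x0 < 0 := mul_neg_of_pos_of_neg h10 hcon
    omega
  -- `v` has a centre on `X`
  have hover : IsOver A v := by
    intro a'
    have h1 : 0 ≤ w (algebraMap K L a') := by
      refine (fun (y : L) (hy : y ∈ Algebra.adjoin ℂ (insert x0 (Set.range (fun l => t (Sum.inl l)) ∪
          {y | ∃ j, P j ∧ y = t (Sum.inr j)}))) => ?_ :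
        ∀ y ∈ Algebra.adjoin ℂ (insert x0 (Set.range (fun l => t (Sum.inl l)) ∪
          {y | ∃ j, P j ∧ y = t (Sum.inr j)})), 0 ≤ w y) _ (H.sub a' a'.2)
      induction hy using Algebra.adjoin_induction with
      | mem y hy =>
        rcases hy with rfl | (⟨l, rfl⟩ | ⟨j, hj, rfl⟩)
        · exact (nonneg_iff w H.x0_ne).2 hwx0
        · exact (nonneg_iff w (H.coords.ne_zero _)).2 (hwt0 _ (hal l))
        · exact (nonneg_iff w (H.coords.ne_zero _)).2 (hwt0 _ (har j hj))
      | algebraMap r =>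
        by_cases hr : r = 0
        · rw [hr]; simp
        · rw [hw.const r hr]
      | add y z _ _ hy hz => exact nonneg_add w hy hz
      | mul y z _ _ hy hz => exact nonneg_mul w hy hz
    rw [hvw] at h1
    by_cases ha' : (a' : K) = 0
    · rw [ha']; simp
    · rw [← coe_ov v ha', ← WithTop.coe_nsmul] at h1
      rw [nonneg_iff v ha']
      have h2 : (0 : ℤ) ≤ e • ov v a' := by exact_mod_cast h1
      rw [nsmul_eq_mul] at h2
      by_contra hcon
      push Not at hcon
      have h3 : (0 : ℤ) < e := by exact_mod_cast he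
      have : (e : ℤ) * ov v a' < 0 := mul_neg_of_pos_of_neg h3 hcon
      omega
  obtain ⟨m, hm⟩ := formOrder_exists hd H.trdegK hv hω
  have hdisc := hlc v w e m hv hover hm he hw.normalized hvw
  -- compute the log discrepancy
  have h1 := formOrder_transfer hd H.trdegK H.trdegL hv hw.normalized he hvw hpull hm
  have h2 := formOrder_smul' hd H.trdegL hw hwΩ hh
  have h3 := formOrder_unique h1 h2
  have h5 : (e : ℝ) * (1 + m) = ov w h := by
    have h6 : (e : ℤ) * (1 + m) = ov w h := by linarith only [h3]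
    exact_mod_cast h6
  rw [h5, sub_self, zero_add] at hdisc
  have hge : (g' : ℝ) * (PsiF c fun j => (ov w (t (Sum.inr j)) : ℝ))
      = r0 * PsiF c fun j => x (Sum.inr j) := by
    rw [← (isSub_PsiF c).smul _ _ (by positivity : (0 : ℝ) ≤ g'),
      ← (isSub_PsiF c).smul _ _ (by positivity : (0 : ℝ) ≤ r0)]
    congr 1
    ext j
    simp only [Pi.smul_apply, smul_eq_mul]
    rw [← ha]
    exact_mod_cast hwt (Sum.inr j)
  -- divisibility of the ramification index
  have hdiv : (r0 : ℤ) ∣ g' * e := by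
    obtain ⟨f, hf⟩ := hv.normalized
    have hf0 : f ≠ 0 := ne_zero_of_eq v (n := 1) (by simpa only [WithTop.coe_one] using hf)
    have hfL0 : algebraMap K L f ≠ 0 := (map_ne_zero _).2 hf0
    have hinv : ∀ τ ∈ G0, τ (algebraMap K L f) = algebraMap K L f :=
      fun τ hτ => (H.fix _).2 ⟨f, rfl⟩ τ (H.le hτ)
    obtain ⟨p, r, hp0, hr0', hfpr, hpinv, hrinv⟩ := H.exists_quot _ hfL0 hinv
    have hval' : ∀ p : MvPolynomial (Fin q ⊕ Fin k) ℂ, p ≠ 0 →
        (∀ τ ∈ G0, τ (aeval t p) = aeval t p) → (r0 : ℤ) ∣ g' * ov w (aeval t p) := by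
      intro p hp hpinv
      obtain ⟨u, hu, h5⟩ := H.lattice_valueZ (w := w) (a := a) (g' := g')
        (fun p hp => by
          obtain ⟨m, hm, h6, -⟩ := hwp p hp
          exact ⟨m, hm, h6⟩) hp hpinv
      obtain ⟨z, hz⟩ := hxM u hu
      rw [h5]
      refine ⟨z, ?_⟩
      have h7 : ((∑ i, a i * u i : ℤ) : ℝ) = ((r0 * z : ℤ) : ℝ) := by
        push_cast
        rw [← hz, Finset.mul_sum]
        apply Finset.sum_congr rfl
        intro i _
        rw [ha]; ring
      exact_mod_cast h7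
    have h5 := hval' p hp0 hpinv
    have h6 := hval' r hr0' hrinv
    have h7 : ov w (algebraMap K L f) = e := by
      apply ov_eq_of
      rw [hvw, hf]
      simp
    rw [hfpr, ov_div w (H.coords.aeval_ne_zero hp0) (H.coords.aeval_ne_zero hr0')] at h7
    have h8 := dvd_sub h5 h6
    rwa [← mul_sub, h7] at h8
  have hle : (r0 : ℤ) ≤ g' * e := Int.le_of_dvd (by (clear * - hg' he; positivity)) hdiv
  -- conclusion
  have hleR : (r0 : ℝ) ≤ g' * e := by exact_mod_cast hle
  have h7 : (0 : ℝ) < r0 := by exact_mod_cast hr0pos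
  have h8 : (g' : ℝ) * (e * ε) ≤ g' * PsiF c fun j => (ov w (t (Sum.inr j)) : ℝ) :=
    mul_le_mul_of_nonneg_left hdisc (by positivity)
  rw [hge] at h8
  have h9 : (r0 : ℝ) * ε ≤ g' * e * ε := mul_le_mul_of_nonneg_right hleR hε.le
  refine le_of_mul_le_mul_left (h9.trans ?_) h7
  linarith only [h8]

end

/-- **The engine.** -/
theorem engineP (q k : ℕ) (hd : 0 < q + k) (J : ℕ) : ∃ c₀ : ℕ, 0 < c₀ ∧ ∀ ε : ℝ, 0 < ε →
    ∀ N : ℕ, (c₀ : ℝ) * (1 + 1 / ε) ≤ N →
    ∀ (K L : Type) [Field K] [Field L] [Algebra ℂ K] [Algebra ℂ L] [Algebra K L]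
      [IsScalarTower ℂ K L] (P : Fin k → Prop) (t : Fin q ⊕ Fin k → L)
      (g : MvPolynomial (Fin k) ℂ) (x0 : L)
      (G G0 : Subgroup (L ≃ₐ[ℂ] L)) (A : Subalgebra ℂ K), EngineDataP q k J P t g x0 G G0 A →
    ∀ (ω : ⋀[K]^(q + k) (Ω[K⁄ℂ])) (h : L), ω ≠ 0 → h ≠ 0 → IsPullback ω (h • logForm t) →
      (∀ τ ∈ G0, τ h = h) →
    ∀ (ι : Type) [Fintype ι] [Nonempty ι] (c : ι → Fin k → ℚ),
      (∀ (v : AddValuation K (WithTop ℤ)) (w w' : AddValuation L (WithTop ℤ)) (e : ℕ),
        IsDivisorial (q + k) v → IsOver A v → 0 < e → (∃ f, w f = 1) → (∃ f, w' f = 1) →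
        (∀ f : K, w (algebraMap K L f) = e • v f) → (∀ f : K, w' (algebraMap K L f) = e • v f) →
        (ov w h : ℝ) - (PsiF c fun j => (ov w (t (Sum.inr j)) : ℝ))
          = ov w' h - PsiF c fun j => (ov w' (t (Sum.inr j)) : ℝ)) →
      (∀ (v : AddValuation K (WithTop ℤ)) (w : AddValuation L (WithTop ℤ)) (e : ℕ) (m : ℤ),
        IsDivisorial (q + k) v → IsOver A v → FormOrder (q + k) v ω m → 0 < e → (∃ f, w f = 1) →
        (∀ f : K, w (algebraMap K L f) = e • v f) →
        (e : ℝ) * ε ≤ e * (1 + m) - ov w h + PsiF c fun j => (ov w (t (Sum.inr j)) : ℝ)) →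
      ∃ φ : K, φ ≠ 0 ∧
        (∀ (v : AddValuation K (WithTop ℤ)) (w : AddValuation L (WithTop ℤ)) (e : ℕ),
          IsDivisorial (q + k) v → IsOver A v → 0 < e → (∃ f, w f = 1) →
          (∀ f : K, w (algebraMap K L f) = e • v f) →
          ((N * J.factorial : ℕ) : ℝ) * ((ov w h : ℝ)
            - PsiF c fun j => (ov w (t (Sum.inr j)) : ℝ)) ≤ e * ov v φ) ∧
        (∀ (v : AddValuation K (WithTop ℤ)) (m : ℤ), IsDivisorial (q + k) v → IsOver A v →
          FormOrder (q + k) v ω m → ov v φ < (N * J.factorial : ℕ) * (1 + m)) := by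
  classical
  obtain ⟨C, hC0, hC⟩ := sections_existP q k
  obtain ⟨N0, hN0⟩ := exists_nat_ge (2 * ((q : ℝ) + k) * C)
  refine ⟨2 * (q + k) + 1 + N0, by omega, ?_⟩
  intro ε hε N hN K L _ _ _ _ _ _ P t g x0 G G0 A H ω h hω hh hpull hhG ι _ _ c hκ hlc
  have hε1 : 0 < 1 / ε := by positivity
  -- the two lower bounds of `N`
  have hN1 : (2 * ((q : ℤ) + k)) < N := by
    have h1 : ((2 * (q + k) + 1 + N0 : ℕ) : ℝ) * 1 ≤ N := by
      refine le_trans (mul_le_mul_of_nonneg_left ?_ (by positivity)) hN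
      linarith
    have h2 : 2 * (q + k) + 1 + N0 ≤ N := by
      rw [mul_one] at h1
      exact_mod_cast h1
    omega
  have hN2 : 2 * ((q : ℝ) + k) * (C / ε) ≤ N := by
    have h1 : ((2 * (q + k) + 1 + N0 : ℕ) : ℝ) * (1 / ε) ≤ N := by
      refine le_trans (mul_le_mul_of_nonneg_left ?_ (by positivity)) hN
      linarith
    have h2 : 2 * ((q : ℝ) + k) * C * (1 / ε) ≤ ((2 * (q + k) + 1 + N0 : ℕ) : ℝ) * (1 / ε) := by
      refine mul_le_mul_of_nonneg_right ?_ hε1.le
      push_cast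
      have h3 : (0 : ℝ) ≤ 2 * (q + k) + 1 := by positivity
      linarith
    calc 2 * ((q : ℝ) + k) * (C / ε) = 2 * ((q : ℝ) + k) * C * (1 / ε) := by ring
      _ ≤ _ := h2.trans h1
  haveI := H.isAlgebraic
  haveI := H.essL
  haveI := H.essK
  haveI := H.finDim
  haveI : Finite G := H.fin
  haveI : Finite G0 := Set.Finite.subset (Set.toFinite (G : Set (L ≃ₐ[ℂ] L))) H.le
  haveI : CharZero K := charZero_of_injective_algebraMap (algebraMap ℂ K).injective
  have ht0 := H.coords.ne_zero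
  have hr0 : 0 < Nat.card G0 := Nat.card_pos
  have hSne : (supp g).Nonempty := by
    obtain ⟨n, hn⟩ := support_nonempty.2 H.g_ne
    exact ⟨_, Finset.mem_image_of_mem _ hn⟩
  have hpsi := psi_boundP H hd hε hω hh hpull c hlc
  -- positivity of the log discrepancy function
  obtain ⟨Kb, hKb0, hKb⟩ := PsiF_bound c
  have hpos : ∀ y : Fin k → ℝ, (∀ j, P j → 0 ≤ y j) → y ≠ 0 → 0 < PsiF c y := by
    refine fun y hy hy0 => pos_of_latticeP P (PsiF c) (isSub_PsiF c) Kb hKb0 hKb ε hε ?_ y hy hy0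
    intro a hanonneg ha
    have h1 := hpsi (Sum.elim (fun _ => 0) fun j => (a j : ℝ)) ?_ ?_ ?_
    · exact h1
    · refine ⟨?_, ?_, ?_⟩
      · intro l
        exact le_rfl
      · intro j hj
        simp only [Sum.elim_inr]
        exact_mod_cast hanonneg j hj
      · intro μ hμ
        simp only [Sum.elim_inl, Finset.sum_const_zero]
        exact mdot_nonnegP H.supp_supp hμ _ fun j hj => by
          simp only [Sum.elim_inr]
          exact_mod_cast hanonneg j hj
    · intro u _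
      refine ⟨∑ j, a j * u (Sum.inr j), ?_⟩
      rw [Fintype.sum_sum_type]
      simp only [Sum.elim_inl, zero_mul, Finset.sum_const_zero, zero_add, Sum.elim_inr]
      push_cast
      rfl
    · intro h0
      apply ha
      ext j
      have h2 := congrFun h0 (Sum.inr j)
      simp only [Sum.elim_inr, Pi.zero_apply] at h2
      exact_mod_cast h2
  have hnn : ∀ y : Fin k → ℝ, (∀ j, P j → 0 ≤ y j) → 0 ≤ PsiF c y := by
    intro y hy
    by_cases hy0 : y = 0
    · rw [hy0, (isSub_PsiF c).zero]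
    · exact (hpos y hy hy0).le
  obtain ⟨Ls, hLlen, hL1, hL2⟩ := hC ε hε (invLattice t ht0 G0) (Nat.card G0) hr0
    (fun u => H.card_smul_mem u) (supp g) hSne H.supp_mem P H.supp_supp
    (fun x => PsiF c fun j => x (Sum.inr j))
    ((isSub_PsiF c).comp (LinearMap.funLeft ℝ ℝ (Sum.inr : Fin k → Fin q ⊕ Fin k)))
    (fun x y hxy => by
      have : (fun j => x (Sum.inr j)) = fun j => y (Sum.inr j) := funext hxy
      simp only [this])
    (fun x hx1 hx2 hx0 => hpos _ hx2 (by
      intro h0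
      apply hx0
      ext i
      rcases i with l | j
      · exact hx1 l
      · exact congrFun h0 j)) hpsi
  have hLs : ∀ s ∈ Ls, s.1 = 0 ∨ ∃ l, s.2 (Sum.inl l) = 0 := fun s hs => (hL1 s hs).2.1
  have hne : ∀ s ∈ Ls, 1 + phi t x0 s ≠ 0 := fun s hs => H.one_add_phi_ne_zero (hLs s hs)
  let Q : L := (Ls.map fun s => 1 + phi t x0 s).prod
  have hQ0 : Q ≠ 0 := list_prod_ne_zero Ls _ hne
  let F : L := h ^ N * Q
  have hF0 : F ≠ 0 := mul_ne_zero (pow_ne_zero _ hh) hQ0
  have hFinv : ∀ τ ∈ G0, τ F = F := by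
    intro τ hτ
    simp only [F, map_mul, map_pow, hhG τ hτ]
    congr 1
    apply map_list_prod'
    intro s hs
    rw [map_add, map_one, H.phi_inv s (hL1 s hs).2.2.1 τ hτ]
  have hFov : ∀ w : AddValuation L (WithTop ℤ),
      ov w F = N * ov w h + (Ls.map fun s => ov w (1 + phi t x0 s)).sum := by
    intro w
    simp only [F]
    rw [ov_mul w (pow_ne_zero _ hh) hQ0, ov_pow w hh]
    congr 1
    exact ov_list_prod w Ls _ hne
  obtain ⟨φ, hφ0, hφ⟩ := H.exists_norm F hFinv hF0
  -- common facts on the twisted valuations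
  have htw : ∀ (v : AddValuation K (WithTop ℤ)) (w : AddValuation L (WithTop ℤ)) (e : ℕ),
      IsOver A v → (∀ f : K, w (algebraMap K L f) = e • v f) →
      ∀ τ ∈ G, (∀ l, 0 ≤ (w.comap (τ : L →+* L)) (t (Sum.inl l))) ∧
        (∀ j, P j → 0 ≤ (w.comap (τ : L →+* L)) (t (Sum.inr j))) ∧
        0 ≤ (w.comap (τ : L →+* L)) x0 := by
    intro v w e hover hvw τ hτ
    have hnn : ∀ a ∈ A, 0 ≤ (w.comap (τ : L →+* L)) (algebraMap K L a) := by
      intro a ha
      rw [H.twist hvw hτ]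
      exact nsmul_nonneg (hover ⟨a, ha⟩) e
    exact ⟨fun l => nonneg_of_integral hnn (H.intl l),
      fun j hj => nonneg_of_integral hnn (H.intj j hj), nonneg_of_integral hnn H.int0⟩
  refine ⟨φ, hφ0, ?_, ?_⟩
  · -- effectivity
    intro v w e hv hover he hw1 hvw
    set κ : ℝ := (ov w h : ℝ) - PsiF c fun j => (ov w (t (Sum.inr j)) : ℝ) with hκdef
    have hb : ∀ τ ∈ G, ⌈(N : ℝ) * κ⌉ ≤ ov w (τ F) := by
      intro τ hτ
      rw [Int.ceil_le]
      set w1 := w.comap (τ : L →+* L) with hw1def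
      have hκ1 : κ = (ov w1 h : ℝ) - PsiF c fun j => (ov w1 (t (Sum.inr j)) : ℝ) :=
        hκ v w w1 e hv hover he hw1 (comap_normalized hw1 τ) hvw (fun f => H.twist hvw hτ f)
      obtain ⟨h1, h1r, h0⟩ := htw v w e hover hvw τ hτ
      have h1' : ∀ l, 0 ≤ ov w1 (t (Sum.inl l)) := fun l => (nonneg_iff w1 (ht0 _)).1 (h1 l)
      have h1r' : ∀ j, P j → 0 ≤ ov w1 (t (Sum.inr j)) := fun j hj =>
        (nonneg_iff w1 (ht0 _)).1 (h1r j hj)
      have h0' : 0 ≤ ov w1 x0 := (nonneg_iff w1 H.x0_ne).1 h0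
      have h2 : ov w (τ F) = ov w1 F := rfl
      rw [h2, hFov]
      set σ : ℝ := PsiF c fun j => (ov w1 (t (Sum.inr j)) : ℝ) with hσ
      have hσ0 : 0 ≤ σ := hnn _ fun j hj => by exact_mod_cast h1r' j hj
      have hCε : 0 ≤ C / ε := div_nonneg hC0 hε.le
      have h3 := list_sum_ge Ls (fun s => ov w1 (1 + phi t x0 s)) (-(C / ε * σ)) fun s hs =>
        H.phi_lower h1' h0' (mul_nonneg hCε hσ0) (hL1 s hs).1
          ((hL1 s hs).2.2.2 (fun j => (ov w1 (t (Sum.inr j)) : ℝ)) fun j hj => by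
            exact_mod_cast h1r' j hj) (hne s hs)
      rw [hLlen] at h3
      have h5 : (2 * ((q : ℝ) + k) * (C / ε)) * σ ≤ N * σ :=
        mul_le_mul_of_nonneg_right hN2 hσ0
      rw [hκ1]
      rw [Int.cast_add, Int.cast_mul]
      push_cast at h3 ⊢
      nlinarith only [h5, h3]
    have h1 := (hφ w v e hvw).1 _ hb
    have h2 : (J.factorial : ℝ) * (⌈(N : ℝ) * κ⌉ : ℝ) ≤ e * ov v φ := by exact_mod_cast h1
    refine le_trans ?_ h2
    calc ((N * J.factorial : ℕ) : ℝ) * κ = (J.factorial : ℝ) * ((N : ℝ) * κ) := by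
          push_cast; ring
      _ ≤ _ := mul_le_mul_of_nonneg_left (Int.le_ceil _) (by positivity)
  · -- the complement is klt
    intro v m hv hover hm
    obtain ⟨w, e, he, hw1, hvw⟩ := exists_extension (L := L) v hv.normalized
    have heQ : (0 : ℚ) < e := by exact_mod_cast he
    have hb : ∀ τ ∈ G, ov w (τ F) < N * (e * (1 + m)) := by
      intro τ hτ
      set w1 := w.comap (τ : L →+* L) with hw1def
      have hw1n := comap_normalized hw1 τ
      have hvw1 : ∀ f : K, w1 (algebraMap K L f) = e • v f := fun f => H.twist hvw hτ f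
      have hdiv := isDivisorial_of_ext hv hw1n hvw1
      obtain ⟨h1, h1r, h0⟩ := htw v w e hover hvw τ hτ
      have hf := formOrder_transfer hd H.trdegK H.trdegL hv hw1n he hvw1 hpull hm
      have hf2 := formOrder_smul' hd H.trdegL hdiv hf (inv_ne_zero hh)
      rw [smul_smul, inv_mul_cancel₀ hh, one_smul, ov_inv] at hf2
      have hcore := (core_positivityP (P := P) hd H.coords H.g_ne H.x0_eq hdiv h1 h1r h0 hf2 Ls hLlen hLs hL2
        (N : ℤ) hN1).2
      have h2 : ov w (τ F) = ov w1 F := rfl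
      rw [h2, hFov]
      have h3 : (N : ℤ) * (e * (1 + m) - 1 + -ov w1 h + 1) = N * (e * (1 + m)) - N * ov w1 h := by
        ring
      rw [h3] at hcore
      linarith only [hcore]
    have h1 := (hφ w v e hvw).2 _ hb
    have h4 : (e : ℤ) * ov v φ < e * ((N * J.factorial : ℕ) * (1 + m)) := by
      refine lt_of_lt_of_le h1 (le_of_eq ?_)
      push_cast; ring
    exact lt_of_mul_lt_mul_left h4 (by exact_mod_cast he.le)

end Vale.Agent.P283.H207.F329
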