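import Vale.Agent.P283.H329.Strong

/-!
P283: the strong form of the main theorem in the form-free setting.
-/

namespace Vale.Agent.P283

open scoped KaehlerDifferential
open MvPolynomial

/-- Translation of the strong form. -/
theorem strong_new {K : Type} [Field K] [Algebra ℂ K] {d : ℕ} {D : Fin d → Derivation ℂ K K}
    {ω : ⋀[K]^d (Ω[K⁄ℂ])} (hω : ω ≠ 0)
    (hD : ∀ f : Fin d → K, wedgeD d f = Q.jac D f • ω) {A : Subalgebra ℂ K} {B : Q.QDivisor A}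
    {n : ℕ} (h : StrongCompl d ω (toOld B) n) :
    ∃ (r : ℕ) (ψ φ : K), (∀ p : Ideal A, Q.IsLocalEquation D B p r ψ) ∧ φ ≠ 0 ∧
      (∀ (v : AddValuation K (WithTop ℤ)) (m k : ℤ), Q.IsDivisorial d v → Q.IsOver A v →
        Q.FormOrder v D m → v φ = (k : WithTop ℤ) → 0 < 1 + (m : ℚ) - (k : ℚ) / n) ∧
      (∀ (v : AddValuation K (WithTop ℤ)) (k l : ℤ), Q.IsDivisorial d v → Q.IsOver A v →
        v φ = (k : WithTop ℤ) → v ψ = (l : WithTop ℤ) → (l : ℚ) / r ≤ (k : ℚ) / n) := by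
  obtain ⟨r, ψ, φ, h0, hφ, h1, h2⟩ := h
  refine ⟨r, ψ, φ, fun p => (localEquation_iff hω hD).2 (h0 p), hφ, ?_, ?_⟩
  · intro v m k hv hover hm hk
    exact h1 v m k (divisorial_iff.1 hv) hover ((formOrder_iff_jac hω hD).1 hm) hk
  · intro v k l hv hover hk hl
    exact h2 v k l (divisorial_iff.1 hv) hover hk hl

/-- From the strong form to the complements on all crepant models. -/
theorem models {K : Type} [Field K] [Algebra ℂ K] {d : ℕ} {D : Fin d → Derivation ℂ K K}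
    {A : Subalgebra ℂ K} {B : Q.QDivisor A} (hB : ∀ p, 0 ≤ B.coeff p) {n r : ℕ} {ψ φ : K}
    (h0 : ∀ p : Ideal A, Q.IsLocalEquation D B p r ψ) (hφ : φ ≠ 0)
    (h1 : ∀ (v : AddValuation K (WithTop ℤ)) (m k : ℤ), Q.IsDivisorial d v → Q.IsOver A v →
        Q.FormOrder v D m → v φ = (k : WithTop ℤ) → 0 < 1 + (m : ℚ) - (k : ℚ) / n)
    (h2 : ∀ (v : AddValuation K (WithTop ℤ)) (k l : ℤ), Q.IsDivisorial d v → Q.IsOver A v →
        v φ = (k : WithTop ℤ) → v ψ = (l : WithTop ℤ) → (l : ℚ) / r ≤ (k : ℚ) / n) :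
    (∀ (u : AddValuation K (WithTop ℤ)) (p : Ideal A) (m k : ℤ),
      Q.IsPrimeDivisorOn A d u p → Q.FormOrder u D m → u φ = (k : WithTop ℤ) →
        0 ≤ (k : ℚ) / n - m ∧ B.coeff p ≤ (k : ℚ) / n - m) ∧
    ∀ (𝒞 : Set (Subalgebra ℂ K)) (b : AddValuation K (WithTop ℤ) → ℚ),
      Q.IsCrepantModel D B 𝒞 b → Q.IsKltComplementOn D 𝒞 b n φ := by
  have hr : 0 < r := (h0 ⊤).1
  have hrQ : (r : ℚ) ≠ 0 := by exact_mod_cast hr.ne'
  have hψ : ψ ≠ 0 := (h0 ⊤).2.1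
  refine ⟨?_, ?_⟩
  · intro u p m k hu hm hk
    obtain ⟨l, hl⟩ : ∃ l : ℤ, u ψ = (l : WithTop ℤ) := ⟨ov u ψ, (coe_ov u hψ).symm⟩
    have h3 := (h0 p).2.2 u p m l hu le_rfl hm hl
    have h4 := h2 u k l hu.1 hu.2.1 hk hl
    rw [h3, mul_div_cancel_left₀ _ hrQ] at h4
    have h5 := hB p
    constructor <;> linarith
  · intro 𝒞 b hb
    refine ⟨hφ, fun C hC => ⟨?_, ?_⟩⟩
    · intro u p' m k hu hm hk
      have hover : Q.IsOver A u := fun a => hu.2.1 ⟨a, hb.le C hC a.2⟩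
      obtain ⟨l, hl⟩ : ∃ l : ℤ, u ψ = (l : WithTop ℤ) := ⟨ov u ψ, (coe_ov u hψ).symm⟩
      have h3 := hb.crepant C hC u p' hu (centreIdeal A u hover) r ψ m l (fun _ => Iff.rfl)
        (h0 _) hm hl
      have h4 := h2 u k l hu.1 hover hk hl
      rw [h3, mul_div_cancel_left₀ _ hrQ] at h4
      have h5 := hb.effective C hC u p' hu
      constructor <;> linarith
    · intro v m k hv hv' hm hk
      exact h1 v m k hv (fun a => hv' ⟨a, hb.le C hC a.2⟩) hm hk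

theorem main_strong (d : ℕ) (hd : 0 < d) (ε : ℝ) (hε : 0 < ε) : ∃ n : ℕ, 0 < n ∧
    ∀ q k : ℕ, q + k = d → ∀ (K L : Type) [Field K] [Field L] [Algebra ℂ K] [Algebra ℂ L]
      [Algebra K L] [IsScalarTower ℂ K L] (x : Fin (q + 1) → L) (z : Fin k → L)
      (g : MvPolynomial (Fin k) ℂ) (b : Fin k → ℚ) (G : Subgroup (L ≃ₐ[ℂ] L))
      (A : Subalgebra ℂ K), Q.IsQuotient x z g b G A →
    ∀ D : Fin (q + k) → Derivation ℂ K K, (∃ f, Q.jac D f ≠ 0) →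
    ∀ B : Q.QDivisor A, (∀ p, 0 ≤ B.coeff p) → Q.IsCrepant x z b A D B → Q.IsEpsLC D B ε →
    (∀ m : Ideal A, m.IsMaximal → Q.HasKltComplement D B n m) ∧
    ∃ φ : K, Q.IsKltComplement D B n φ ∧
      ∀ (𝒞 : Set (Subalgebra ℂ K)) (β : AddValuation K (WithTop ℤ) → ℚ),
        Q.IsCrepantModel D B 𝒞 β → Q.IsKltComplementOn D 𝒞 β n φ := by
  obtain ⟨n, hn, hmain⟩ := result_abs_strong d hd ε hε
  refine ⟨n, hn, ?_⟩
  intro q k hqk K L _ _ _ _ _ _ x z g b G A H D hD B hB hc hlc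
  have hcoords := isCoords_of_quotient H
  have halg : Algebra.IsAlgebraic K L := isAlgebraic_of_quotient H
  have htr : Algebra.trdeg ℂ L = ((q + k : ℕ) : Cardinal) := by
    rw [hcoords.trdeg_eq]; simp only [Fintype.card_sum, Fintype.card_fin, Nat.cast_add]
  obtain ⟨b0, hb0, hb0'⟩ := exists_common_basis (K := K) (L := L) htr
  obtain ⟨BK, hBK⟩ := exists_kaehler_basis b0 hb0
  obtain ⟨BL, hBL⟩ := exists_kaehler_basis _ hb0'
  obtain ⟨-, hω, hDω⟩ := wedgeD_eq_jac BK hBK D hD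
  have hx : ∀ l, Fin.tail x l ≠ 0 := fun l => hcoords.ne_zero (Sum.inl l)
  have hz : ∀ j, z j ≠ 0 := fun j => hcoords.ne_zero (Sum.inr j)
  obtain ⟨r, ψ, φ, h0, hφ, h1, h2⟩ := strong_new hω hDω (hmain q k hqk K L x z g b G A H _ hω
    (toOld B) (crepant_old x z b hx hz BK hBK BL hBL hω hDω hc) (epsLC_old hω hDω hlc))
  have h3 := models hB h0 hφ h1 h2
  refine ⟨fun m hm => ⟨1, fun h4 => hm.ne_top ((Ideal.eq_top_iff_one m).2 h4), φ, hφ, ?_, ?_⟩,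
    φ, ⟨hφ, h3.1, h1⟩, h3.2⟩
  · intro u p m' k' hu _ hm' hk'
    exact h3.1 u p m' k' hu hm' hk'
  · intro v m' k' hv hover _ hm' hk'
    exact h1 v m' k' hv hover hm' hk'

end Vale.Agent.P283
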