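import Vale.Agent.P283.H329.Lin
import Vale.Agent.P283.H329.Main

/-!
P283: complements with `n` linear in `1 / ε`, and the lower bound for `n`.
-/

set_option linter.style.haveILetI false

namespace Vale.Agent.P283

open scoped KaehlerDifferential
open MvPolynomial Finset

theorem Abs.result_qk_lin (q k : ℕ) (hd : 0 < q + k) : ∃ (c P : ℕ), 0 < c ∧ 0 < P ∧
    ∀ ε : ℝ, 0 < ε → ∀ N : ℕ, (c : ℝ) * (1 + 1 / ε) ≤ N →
    ∀ (K L : Type) [Field K] [Field L] [Algebra ℂ K] [Algebra ℂ L]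
      [Algebra K L] [IsScalarTower ℂ K L] (x : Fin (q + 1) → L) (z : Fin k → L)
      (g : MvPolynomial (Fin k) ℂ) (b : Fin k → ℚ) (G : Subgroup (L ≃ₐ[ℂ] L))
      (A : Subalgebra ℂ K), Q.IsQuotient x z g b G A →
    ∀ ω : ⋀[K]^(q + k) (Ω[K⁄ℂ]), ω ≠ 0 → ∀ B : QDivisor A,
    (∀ h : L, IsPullback ω (h • ((∏ l, Fin.tail x l)⁻¹ • wedgeD (q + k)
        (Fin.append (Fin.tail x) z))) →
      ∀ (u : AddValuation K (WithTop ℤ)) (p : Ideal A) (m : ℤ) (w : AddValuation L (WithTop ℤ))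
        (e : ℕ), IsPrimeDivisorOn A (q + k) u p → FormOrder (q + k) u ω m → 0 < e →
        (∃ f, w f = 1) → (∀ f : K, w (algebraMap K L f) = e • u f) →
        (e : ℚ) * (m + B.coeff p) = ov w h + ∑ j, b j * ov w (z j)) →
    IsEpsLC (q + k) ω B ε → StrongCompl (q + k) ω B (N * P) := by
  classical
  obtain ⟨J, hJ⟩ := Abs.exists_diag q k
  obtain ⟨c, hc, heng⟩ := engine_lin q k hd J
  refine ⟨c, J.factorial, hc, J.factorial_pos, ?_⟩
  intro ε hε n hn K L _ _ _ _ _ _ x z g b G A H ω hω B hcrep hlc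
  obtain ⟨G0, v, hle, hidx, hv, hvb, hdiag0, hdiag⟩ := hJ K L x z g b G A H
  obtain ⟨g', hg', haev⟩ := Abs.exists_newg v hv H
  obtain ⟨c₀, hc₀, homega⟩ := Abs.omY_eq v hv H
  obtain ⟨F₀, hF₀, hpull, hsemi⟩ := Abs.exists_pullback H ω hω
  have hcoords := Abs.isCoords_nT v hv H
  -- the data
  have hdata : EngineData q k J (Abs.nT x z v) g' (x 0) G G0 A :=
    { coords := hcoords
      g_ne := hg'
      x0_eq := by
        rw [haev]
        exact Abs.x0_mul H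
      fin := H.finite
      fix := fun f => (H.field f).symm
      le := hle
      index := hidx
      diag := by
        rintro τ hτ (l | j)
        · exact hdiag0 τ hτ l.succ
        · exact hdiag τ hτ j
      diag0 := fun τ hτ => hdiag0 τ hτ 0
      frac := by
        intro f
        obtain ⟨x, hx, y, hy, hy0, h⟩ := Abs.ring_frac H f
        exact ⟨x, hx, y, hy, hy0, h⟩
      sub := fun a ha => Abs.ring_sub H v hv a ha
      int0 := Abs.rY_integral H (Abs.x_mem x z 0)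
      int := by
        rintro (l | j)
        · exact Abs.rY_integral H (Abs.x_mem x z l.succ)
        · exact Abs.rY_integral H (Abs.lin_mem x z _) }
  -- denominators
  let D : ℕ := ∏ j, (b j).den
  have hD : 0 < D := Finset.prod_pos fun j _ => (b j).den_pos
  have hDb : ∀ j, ∃ e : ℤ, (e : ℚ) = D * b j := by
    intro j
    obtain ⟨m, hm⟩ : (b j).den ∣ D := Finset.dvd_prod_of_mem _ (Finset.mem_univ j)
    refine ⟨m * (b j).num, ?_⟩
    rw [hm]
    push_cast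
    have := Rat.den_mul_eq_num (b j)
    rw [mul_comm ((b j).den : ℚ) m, mul_assoc, this]
  choose e₀ he₀ using hDb
  have he1 : ∀ i j, b i = b j → e₀ i = e₀ j := by
    intro i j hij
    have h1 := he₀ i
    rw [hij, ← he₀ j] at h1
    exact_mod_cast h1
  have he2 : ∀ j, b j = 0 → e₀ j = 0 := by
    intro j hj
    have h1 := he₀ j
    rw [hj, mul_zero] at h1
    exact_mod_cast h1
  -- the semi-invariant function
  let F : L := F₀ ^ D * ∏ j, z j ^ e₀ j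
  have hF : ∀ τ ∈ G, ∃ κ : ℂ, τ F = algebraMap ℂ L κ * F := by
    intro τ hτ
    obtain ⟨κ₁, -, h1⟩ := hsemi τ hτ
    obtain ⟨κ₂, h2⟩ := Abs.prodZ_semi H e₀ he1 he2 τ hτ
    refine ⟨κ₁ ^ D * κ₂, ?_⟩
    simp only [F]
    rw [map_mul, map_pow, h1, h2, map_mul, map_pow]
    ring
  have hfin : Finite G := H.finite
  let N : ℕ := Nat.card G
  have hN : 0 < N := Nat.card_pos
  obtain ⟨ψ, hψ⟩ := Abs.pow_invariant H F hF
  let zz : Fin k → L := fun j => Abs.lin z (v j)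
  have hzz : ∀ j, zz j ≠ 0 := fun j => hcoords.ne_zero (Sum.inr j)
  have hzb : ∀ j, b j ≠ 0 → zz j = z j := by
    intro j hj
    show Abs.lin z (v j) = _
    rw [hvb j hj, Abs.lin_single]
  have hc₁ : algebraMap ℂ L c₀ ≠ 0 := (map_ne_zero _).mpr hc₀
  let h : L := F₀ * (algebraMap ℂ L c₀ * ∏ j, zz j)
  have hprodzz : ∏ j, zz j ≠ 0 := Finset.prod_ne_zero_iff.mpr fun j _ => hzz j
  have hh0 : h ≠ 0 := mul_ne_zero hF₀ (mul_ne_zero hc₁ hprodzz)
  have hpull' : IsPullback ω (h • logForm (Abs.nT x z v)) := by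
    have : h • logForm (Abs.nT x z v) = F₀ • Abs.omY x z := by
      rw [homega, smul_smul]
    rw [this]
    exact hpull
  have hinv : ∀ τ ∈ G0, τ h = h := by
    intro τ hτ
    refine h_invariant (Abs.nT x z v) hcoords τ
      (fun f => (H.field _).mp ⟨f, rfl⟩ τ (hle hτ)) ?_ ω h hpull'
    rintro (l | j)
    · exact hdiag0 τ hτ l.succ
    · exact hdiag τ hτ j
  have hpow : ∀ j, zz j ^ (((D * N : ℕ) : ℤ) - (((D * N : ℕ) : ℤ) - N * e₀ j))
      = z j ^ (N * e₀ j) := by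
    intro j
    rw [sub_sub_cancel]
    by_cases hj : b j = 0
    · rw [he2 j hj]; simp
    · rw [hzb j hj]
  refine heng ε hε n hn K L (Abs.nT x z v) g' (x 0) G G0 A hdata
    ω h hω hh0 hpull' hinv B (fun j => 1 - b j) (D * N) (fun j => ((D * N : ℕ) : ℤ) - N * e₀ j) ψ
    ((c₀ ^ (D * N))⁻¹) (Nat.mul_pos hD hN) ?_ (inv_ne_zero (pow_ne_zero _ hc₀)) ?_ ?_ hlc
  · intro j
    push_cast
    rw [he₀ j]
    ring
  · -- the equation of `r (K_X + B)`
    rw [hψ]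
    show F ^ N = ((c₀ ^ (D * N))⁻¹) • (h ^ (D * N) * ∏ j, Abs.nT x z v (Sum.inr j) ^
      (-(((D * N : ℕ) : ℤ) - N * e₀ j)))
    have h1 : ∏ j, Abs.nT x z v (Sum.inr j) ^ (-(((D * N : ℕ) : ℤ) - N * e₀ j))
        = (∏ j, z j ^ (N * e₀ j)) / (∏ j, zz j) ^ (D * N) := by
      rw [← Finset.prod_pow, ← Finset.prod_div_distrib]
      refine Finset.prod_congr rfl fun j _ => ?_
      rw [← hpow j]
      show zz j ^ (-(((D * N : ℕ) : ℤ) - N * e₀ j)) = _
      rw [zpow_sub₀ (hzz j) ((D * N : ℕ) : ℤ), zpow_natCast, zpow_neg]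
      have h2 : zz j ^ (D * N) ≠ 0 := pow_ne_zero _ (hzz j)
      field_simp
    rw [h1, Algebra.smul_def, map_inv₀, map_pow]
    have h3 : ∏ j, z j ^ (N * e₀ j) = (∏ j, z j ^ e₀ j) ^ N := by
      rw [← Finset.prod_pow]
      refine Finset.prod_congr rfl fun j _ => ?_
      rw [mul_comm (N : ℤ), zpow_mul, zpow_natCast]
    rw [h3]
    simp only [F, h]
    have h4 : (∏ j, zz j) ^ (D * N) ≠ 0 := pow_ne_zero _ hprodzz
    have h5 : algebraMap ℂ L c₀ ^ (D * N) ≠ 0 := pow_ne_zero _ hc₁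
    rw [mul_pow, mul_pow, mul_pow, ← pow_mul]
    field_simp
  · -- crepancy
    intro u p m w e hu hum he hw huw
    have h1 := hcrep F₀ hpull u p m w e hu hum he hw huw
    rw [h1]
    have hwc : ov w (algebraMap ℂ L c₀) = 0 := by
      have h2 := huw (algebraMap ℂ K c₀)
      rw [hu.1.const c₀ hc₀, smul_zero] at h2
      have h3 : algebraMap K L (algebraMap ℂ K c₀) = algebraMap ℂ L c₀ :=
        (IsScalarTower.algebraMap_apply ℂ K L c₀).symm
      rw [h3] at h2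
      exact ov_eq_of w h2
    have h2 : ov w h = ov w F₀ + ∑ j, ov w (zz j) := by
      show ov w (F₀ * (algebraMap ℂ L c₀ * ∏ j, zz j)) = _
      rw [ov_mul w hF₀ (mul_ne_zero hc₁ hprodzz), ov_mul w hc₁ hprodzz, hwc, zero_add,
        ov_prod Finset.univ zz (fun j _ => hzz j)]
    rw [h2]
    push_cast
    have h3 : ∑ j, (1 - b j) * (ov w (Abs.nT x z v (Sum.inr j)) : ℚ)
        = ∑ j, (ov w (zz j) : ℚ) - ∑ j, b j * (ov w (z j) : ℚ) := by
      rw [← Finset.sum_sub_distrib]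
      refine Finset.sum_congr rfl fun j _ => ?_
      show (1 - b j) * (ov w (zz j) : ℚ) = _
      by_cases hj : b j = 0
      · rw [hj]; ring
      · rw [hzb j hj]; ring
    rw [h3]
    ring

theorem result_abs_lin (d : ℕ) (hd : 0 < d) : ∃ c : ℕ, 0 < c ∧
    ∀ ε : ℝ, 0 < ε → ∀ n : ℕ, c ∣ n → (c : ℝ) * (1 + 1 / ε) ≤ n →
    ∀ q k : ℕ, q + k = d → ∀ (K L : Type) [Field K] [Field L] [Algebra ℂ K] [Algebra ℂ L]
      [Algebra K L] [IsScalarTower ℂ K L] (x : Fin (q + 1) → L) (z : Fin k → L)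
      (g : MvPolynomial (Fin k) ℂ) (b : Fin k → ℚ) (G : Subgroup (L ≃ₐ[ℂ] L))
      (A : Subalgebra ℂ K), Q.IsQuotient x z g b G A →
    ∀ ω : ⋀[K]^(q + k) (Ω[K⁄ℂ]), ω ≠ 0 → ∀ B : QDivisor A,
    (∀ h : L, IsPullback ω (h • ((∏ l, Fin.tail x l)⁻¹ • wedgeD (q + k)
        (Fin.append (Fin.tail x) z))) →
      ∀ (u : AddValuation K (WithTop ℤ)) (p : Ideal A) (m : ℤ) (w : AddValuation L (WithTop ℤ))
        (e : ℕ), IsPrimeDivisorOn A (q + k) u p → FormOrder (q + k) u ω m → 0 < e →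
        (∃ f, w f = 1) → (∀ f : K, w (algebraMap K L f) = e • u f) →
        (e : ℚ) * (m + B.coeff p) = ov w h + ∑ j, b j * ov w (z j)) →
    IsEpsLC (q + k) ω B ε → StrongCompl (q + k) ω B n := by
  classical
  have key : ∀ q k : ℕ, ∃ c P : ℕ, 0 < c ∧ 0 < P ∧ ∀ ε : ℝ, 0 < ε → ∀ N : ℕ,
      (c : ℝ) * (1 + 1 / ε) ≤ N → q + k = d →
      ∀ (K L : Type) [Field K] [Field L] [Algebra ℂ K] [Algebra ℂ L]
      [Algebra K L] [IsScalarTower ℂ K L] (x : Fin (q + 1) → L) (z : Fin k → L)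
      (g : MvPolynomial (Fin k) ℂ) (b : Fin k → ℚ) (G : Subgroup (L ≃ₐ[ℂ] L))
      (A : Subalgebra ℂ K), Q.IsQuotient x z g b G A →
    ∀ ω : ⋀[K]^(q + k) (Ω[K⁄ℂ]), ω ≠ 0 → ∀ B : QDivisor A,
    (∀ h : L, IsPullback ω (h • ((∏ l, Fin.tail x l)⁻¹ • wedgeD (q + k)
        (Fin.append (Fin.tail x) z))) →
      ∀ (u : AddValuation K (WithTop ℤ)) (p : Ideal A) (m : ℤ) (w : AddValuation L (WithTop ℤ))
        (e : ℕ), IsPrimeDivisorOn A (q + k) u p → FormOrder (q + k) u ω m → 0 < e →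
        (∃ f, w f = 1) → (∀ f : K, w (algebraMap K L f) = e • u f) →
        (e : ℚ) * (m + B.coeff p) = ov w h + ∑ j, b j * ov w (z j)) →
    IsEpsLC (q + k) ω B ε → StrongCompl (q + k) ω B (N * P) := by
    intro q k
    by_cases h : q + k = d
    · obtain ⟨c, P, hc, hP, h1⟩ := Abs.result_qk_lin q k (by omega)
      exact ⟨c, P, hc, hP, fun ε hε N hN _ => h1 ε hε N hN⟩
    · exact ⟨1, 1, one_pos, one_pos, fun ε hε N hN h' => absurd h' h⟩
  choose c P hc hP hkey using key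
  -- the common constants
  set c₀ : ℕ := ∏ p ∈ Finset.HasAntidiagonal.antidiagonal d, c p.1 p.2 with hc₀
  set P₀ : ℕ := ∏ p ∈ Finset.HasAntidiagonal.antidiagonal d, P p.1 p.2 with hP₀
  have hc₀pos : 0 < c₀ := Finset.prod_pos fun p _ => hc _ _
  have hP₀pos : 0 < P₀ := Finset.prod_pos fun p _ => hP _ _
  refine ⟨c₀ * P₀, Nat.mul_pos hc₀pos hP₀pos, ?_⟩
  intro ε hε n hdvd hn q k hqk K L _ _ _ _ _ _ x z g b G A H ω hω B hcrep hlc
  obtain ⟨N₁, rfl⟩ := hdvd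
  have hmem : (q, k) ∈ Finset.HasAntidiagonal.antidiagonal d :=
    Finset.HasAntidiagonal.mem_antidiagonal.mpr hqk
  have hcle : c q k ≤ c₀ := Nat.le_of_dvd hc₀pos (Finset.dvd_prod_of_mem (fun p => c p.1 p.2) hmem)
  have hPdvd : P q k ∣ P₀ := Finset.dvd_prod_of_mem (fun p => P p.1 p.2) hmem
  obtain ⟨P₁, hP₁⟩ := hPdvd
  have hP₁pos : 0 < P₁ := by
    rcases Nat.eq_zero_or_pos P₁ with h | h
    · rw [h, mul_zero] at hP₁
      omega
    · exact h
  have hε1 : (0 : ℝ) < 1 + 1 / ε := by positivity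
  have hN : (c q k : ℝ) * (1 + 1 / ε) ≤ ((c₀ * N₁ : ℕ) : ℝ) := by
    have h1 : (c q k : ℝ) ≤ c₀ := by exact_mod_cast hcle
    have h2 : ((c₀ * P₀ : ℕ) : ℝ) * (1 + 1 / ε) ≤ ((c₀ * P₀ * N₁ : ℕ) : ℝ) := hn
    have h3 : (0 : ℝ) < P₀ := by exact_mod_cast hP₀pos
    have h4 : (c₀ : ℝ) * (1 + 1 / ε) ≤ (c₀ : ℝ) * N₁ := by
      push_cast at h2
      refine le_of_mul_le_mul_right ?_ h3
      calc (c₀ : ℝ) * (1 + 1 / ε) * P₀ = c₀ * P₀ * (1 + 1 / ε) := by ring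
        _ ≤ c₀ * P₀ * N₁ := h2
        _ = (c₀ : ℝ) * N₁ * P₀ := by ring
    push_cast
    exact (mul_le_mul_of_nonneg_right h1 hε1.le).trans h4
  have h1 := hkey q k ε hε (c₀ * N₁) hN hqk K L x z g b G A H ω hω B hcrep hlc
  have h2 : c₀ * P₀ * N₁ = c₀ * N₁ * P q k * P₁ := by rw [hP₁]; ring
  rw [h2]
  exact h1.mul hP₁pos

/-- The lower bound for `n`: if `B` has the coefficient `β` along a prime divisor through the
closed point `z`, then `n ≥ 1 / (1 - β)` for every klt `n`-complement over `z`. -/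
theorem le_of_complement {K : Type} [Field K] [Algebra ℂ K] {d : ℕ}
    {D : Fin d → Derivation ℂ K K} {A : Subalgebra ℂ K} {B : Q.QDivisor A} {n : ℕ} (hn : 0 < n)
    {z : Ideal A} (h : Q.HasKltComplement D B n z) (u : AddValuation K (WithTop ℤ)) (p : Ideal A)
    (m : ℤ) (hu : Q.IsPrimeDivisorOn A d u p) (hp : p ≤ z) (hm : Q.FormOrder u D m) :
    1 ≤ (n : ℚ) * (1 - B.coeff p) := by
  obtain ⟨s, hs, φ, hφ, h1, h2⟩ := h
  have hsp : s ∉ p := fun h => hs (hp h)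
  obtain ⟨k, hk⟩ : ∃ k : ℤ, u φ = (k : WithTop ℤ) := ⟨ov u φ, (coe_ov u hφ).symm⟩
  have hus : u s = 0 := by
    have h3 : 0 ≤ u s := hu.2.1 s
    have h4 : ¬ 0 < u s := fun h => hsp ((hu.2.2.1 s).2 h)
    exact le_antisymm (not_lt.1 h4) h3
  have h3 := (h1 u p m k hu hsp hm hk).2
  have h4 := h2 u m k hu.1 hu.2.1 hus hm hk
  have hnQ : (0 : ℚ) < n := by exact_mod_cast hn
  have h5 : (k : ℚ) < n * (1 + m) := by
    have h6 : (k : ℚ) / n < 1 + m := by linarith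
    rwa [div_lt_iff₀ hnQ, mul_comm] at h6
  have h6 : (k : ℚ) + 1 ≤ n * (1 + m) := by
    have h7 : k < n * (1 + m) := by exact_mod_cast h5
    exact_mod_cast h7
  have h7 : (n : ℚ) * B.coeff p ≤ k - n * m := by
    have h8 := mul_le_mul_of_nonneg_left h3 hnQ.le
    rw [mul_sub, mul_div_cancel₀ _ hnQ.ne'] at h8
    exact h8
  linarith

theorem main_lin (d : ℕ) (hd : 0 < d) : ∃ c : ℕ, 0 < c ∧
    ∀ ε : ℝ, 0 < ε → ∀ n : ℕ, c ∣ n → (c : ℝ) * (1 + 1 / ε) ≤ n →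
    ∀ q k : ℕ, q + k = d → ∀ (K L : Type) [Field K] [Field L] [Algebra ℂ K] [Algebra ℂ L]
      [Algebra K L] [IsScalarTower ℂ K L] (x : Fin (q + 1) → L) (z : Fin k → L)
      (g : MvPolynomial (Fin k) ℂ) (b : Fin k → ℚ) (G : Subgroup (L ≃ₐ[ℂ] L))
      (A : Subalgebra ℂ K), Q.IsQuotient x z g b G A →
    ∀ D : Fin (q + k) → Derivation ℂ K K, (∃ f, Q.jac D f ≠ 0) →
    ∀ B : Q.QDivisor A, (∀ p, 0 ≤ B.coeff p) → Q.IsCrepant x z b A D B → Q.IsEpsLC D B ε →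
    (∀ m : Ideal A, m.IsMaximal → Q.HasKltComplement D B n m) ∧
    ∃ φ : K, Q.IsKltComplement D B n φ ∧
      ∀ (𝒞 : Set (Subalgebra ℂ K)) (β : AddValuation K (WithTop ℤ) → ℚ),
        Q.IsCrepantModel D B 𝒞 β → Q.IsKltComplementOn D 𝒞 β n φ := by
  obtain ⟨c, hc, hmain⟩ := result_abs_lin d hd
  refine ⟨c, hc, ?_⟩
  intro ε hε n hdvd hn q k hqk K L _ _ _ _ _ _ x z g b G A H D hD B hB hcr hlc
  have hcoords := isCoords_of_quotient H
  have halg : Algebra.IsAlgebraic K L := isAlgebraic_of_quotient H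
  have htr : Algebra.trdeg ℂ L = ((q + k : ℕ) : Cardinal) := by
    rw [hcoords.trdeg_eq]; simp only [Fintype.card_sum, Fintype.card_fin, Nat.cast_add]
  obtain ⟨b0, hb0, hb0'⟩ := exists_common_basis (K := K) (L := L) htr
  obtain ⟨BK, hBK⟩ := exists_kaehler_basis b0 hb0
  obtain ⟨BL, hBL⟩ := exists_kaehler_basis _ hb0'
  obtain ⟨-, hω, hDω⟩ := wedgeD_eq_jac BK hBK D hD
  have hx : ∀ l, Fin.tail x l ≠ 0 := fun l => hcoords.ne_zero (Sum.inl l)
  have hz : ∀ j, z j ≠ 0 := fun j => hcoords.ne_zero (Sum.inr j)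
  obtain ⟨r, ψ, φ, h0, hφ, h1, h2⟩ := strong_new hω hDω (hmain ε hε n hdvd hn q k hqk K L x z g b
    G A H _ hω (toOld B) (crepant_old x z b hx hz BK hBK BL hBL hω hDω hcr)
    (epsLC_old hω hDω hlc))
  have h3 := models hB h0 hφ h1 h2
  refine ⟨fun m hm => ⟨1, fun h4 => hm.ne_top ((Ideal.eq_top_iff_one m).2 h4), φ, hφ, ?_, ?_⟩,
    φ, ⟨hφ, h3.1, h1⟩, h3.2⟩
  · intro u p m' k' hu _ hm' hk'
    exact h3.1 u p m' k' hu hm' hk'
  · intro v m' k' hv hover _ hm' hk'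
    exact h1 v m' k' hv hover hm' hk'

end Vale.Agent.P283
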