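import Vale.Agent.P283.H207.Cone

/-!
Variant of `H207/Cone.lean` for cones which need not be pointed: the one-constraint Farkas lemma and
the cone theorem without the pointedness hypothesis.
-/

attribute [-instance] ProperSMul.toContinuousSMul IsTopologicalTorsor.toContinuousSMul IdemSemiring.toCanonicallyOrderedAdd IdemSemiring.toMulLeftMono IdemSemiring.toMulRightMono AddQuantale.instAddLeftMono AddQuantale.instAddRightMono Quantale.instMulLeftMono Quantale.instMulRightMono FiniteDimensional.rclike_to_real IsScalarTower.complexToReal FiniteDimensional.complexToReal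

set_option linter.all false

open Module Set

namespace Vale.Agent.P283.H207.F329

section Normed

variable {E : Type*} [NormedAddCommGroup E] [NormedSpace ℝ E] [FiniteDimensional ℝ E]
variable {ι : Type*} (h : ι → E →ₗ[ℝ] ℝ) (ψ : E → ℝ) (hsub : IsSub ψ)
  (hψ : ∀ x, (∀ a, 0 ≤ h a x) → x ≠ 0 → 0 < ψ x)

include hsub hψ in
/-- a one-constraint Farkas lemma with slack -/
lemma one_constraint_normed
    (u : E →ₗ[ℝ] ℝ) (f : E → ℝ) (hfs : IsSub f)
    (hf : ∀ x, (∀ a, 0 ≤ h a x) → u x = 0 → 0 ≤ f x) (δ : ℝ) (hδ : 0 < δ) :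
    ∃ t : ℝ, ∀ x, (∀ a, 0 ≤ h a x) → -(δ * ψ x) ≤ f x + t * u x := by
  let K₁ : Set E := {x : E | (∀ a, 0 ≤ h a x) ∧ ψ x = 1}
  have hK : IsCompact K₁ := slice_compact h ψ hsub hψ
  have huc : Continuous u := LinearMap.continuous_of_finiteDimensional u
  have hψc : Continuous ψ := hsub.continuous
  have hfc : Continuous f := hfs.continuous
  let g : E → ℝ := fun x => f x + δ * ψ x
  have hgs : IsSub g := hsub.add_mul hfs hδ.le
  have hgc : Continuous g := hgs.continuous
  have hgx : ∀ x, g x = f x + δ * ψ x := fun x => rfl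
  -- it suffices to work on the slice
  suffices hmain : ∃ t : ℝ, ∀ x ∈ K₁, 0 ≤ g x + t * u x by
    obtain ⟨t, ht⟩ := hmain
    refine ⟨t, ?_⟩
    intro x hx
    by_cases hx0 : x = 0
    · subst hx0; simp [hsub.zero, hfs.zero]
    · have hpos := hψ x hx hx0
      have hx'K : ((ψ x)⁻¹ • x) ∈ K₁ := by
        refine ⟨?_, ?_⟩
        · intro a
          rw [map_smul, smul_eq_mul]
          exact mul_nonneg (inv_nonneg.mpr hpos.le) (hx a)
        · rw [hsub.smul _ _ (inv_nonneg.mpr hpos.le), inv_mul_cancel₀ hpos.ne']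
      have h1 := ht _ hx'K
      rw [hgs.smul _ _ (inv_nonneg.mpr hpos.le), map_smul, smul_eq_mul] at h1
      have h2 : (ψ x)⁻¹ * g x + t * ((ψ x)⁻¹ * u x) = (ψ x)⁻¹ * (g x + t * u x) := by ring
      rw [h2] at h1
      have h3 : 0 ≤ g x + t * u x := by
        by_contra hcon
        push Not at hcon
        have := mul_neg_of_pos_of_neg (inv_pos.mpr hpos) hcon
        linarith only [h1, this]
      rw [hgx] at h3
      linarith only [h3]
  have hg0 : ∀ x ∈ K₁, u x = 0 → 0 < g x := by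
    intro x hx hux
    have h1 := hf x hx.1 hux
    rw [hgx, hx.2]
    linarith
  let A : Set E := K₁ ∩ {x | g x ≤ 0}
  have hA : IsCompact A := hK.inter_right (isClosed_le hgc continuous_const)
  -- key: combine a point with `u > 0` and one with `u < 0`
  have hcomb : ∀ x ∈ K₁, ∀ y ∈ K₁, 0 < u x → u y < 0 → 0 < (-u y) * g x + u x * g y := by
    intro x hx y hy hux huy
    have huy' : 0 < -u y := by linarith
    have hxc : ∀ a, 0 ≤ h a ((-u y) • x) := fun a => by
      rw [map_smul, smul_eq_mul]; exact mul_nonneg huy'.le (hx.1 a)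
    have hyc : ∀ a, 0 ≤ h a ((u x) • y) := fun a => by
      rw [map_smul, smul_eq_mul]; exact mul_nonneg hux.le (hy.1 a)
    have hzc : ∀ a, 0 ≤ h a ((-u y) • x + (u x) • y) := fun a => by
      rw [map_add]; exact add_nonneg (hxc a) (hyc a)
    have huz : u ((-u y) • x + (u x) • y) = 0 := by
      rw [map_add, map_smul, map_smul, smul_eq_mul, smul_eq_mul]
      ring
    have h1 := hf _ hzc huz
    have h3 := hfs.add ((-u y) • x) ((u x) • y)
    rw [hfs.smul _ _ huy'.le, hfs.smul _ _ hux.le] at h3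
    have h4 := mul_pos hδ huy'
    have h5 := mul_pos hδ hux
    rw [hgx, hgx, hx.2, hy.2]
    linarith only [h1, h3, h4, h5]
  rcases A.eq_empty_or_nonempty with hAe | ⟨x₁, hx₁⟩
  · refine ⟨0, ?_⟩
    intro x hx
    by_contra hcon
    push Not at hcon
    have : x ∈ A := ⟨hx, by simp only [zero_mul, add_zero] at hcon; exact hcon.le⟩
    rw [hAe] at this
    exact this
  · have hx₁u : u x₁ ≠ 0 := by
      intro h0
      have := hg0 x₁ hx₁.1 h0
      have h2 : g x₁ ≤ 0 := hx₁.2
      linarith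
    rcases lt_or_gt_of_ne hx₁u with hneg | hpos
    · -- all of `A` has `u < 0`
      have hAneg : ∀ x ∈ A, u x < 0 := by
        intro x hx
        rcases lt_trichotomy (u x) 0 with h1 | h1 | h1
        · exact h1
        · exfalso
          have := hg0 x hx.1 h1
          have h2 : g x ≤ 0 := hx.2
          linarith
        · exfalso
          have := hcomb x hx.1 x₁ hx₁.1 h1 hneg
          have h2 : g x ≤ 0 := hx.2
          have h3 : g x₁ ≤ 0 := hx₁.2
          nlinarith only [this, hneg, h2, h1, h3]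
      obtain ⟨y, hyA, hy⟩ := hA.exists_isMaxOn ⟨x₁, hx₁⟩
        (f := fun x => g x / u x)
        (hgc.continuousOn.div huc.continuousOn fun x hx => (hAneg x hx).ne)
      have huy := hAneg y hyA
      refine ⟨-(g y / u y), ?_⟩
      intro x hx
      by_cases hgx0 : g x ≤ 0
      · have h1 : g x / u x ≤ g y / u y := hy ⟨hx, hgx0⟩
        have h2 := hAneg x ⟨hx, hgx0⟩
        rw [div_le_iff_of_neg h2] at h1
        linarith only [h1]
      · push Not at hgx0
        have h3 : 0 ≤ g y / u y := div_nonneg_of_nonpos hyA.2 huy.le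
        rcases le_or_gt (u x) 0 with h4 | h4
        · nlinarith only [hgx0, h3, h4]
        · have h5 := hcomb x hx y hyA.1 h4 huy
          have h6 : g x - (g y / u y) * u x = ((-u y) * g x + u x * g y) / (-u y) := by
            have hne : u y ≠ 0 := huy.ne
            field_simp
            ring
          have h7 : 0 < ((-u y) * g x + u x * g y) / (-u y) := div_pos h5 (by linarith only [huy])
          linarith only [h6, h7]
    · have hApos : ∀ x ∈ A, 0 < u x := by
        intro x hx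
        rcases lt_trichotomy (u x) 0 with h1 | h1 | h1
        · exfalso
          have := hcomb x₁ hx₁.1 x hx.1 hpos h1
          have h2 : g x ≤ 0 := hx.2
          have h3 : g x₁ ≤ 0 := hx₁.2
          nlinarith only [this, hpos, h2, h1, h3]
        · exfalso
          have := hg0 x hx.1 h1
          have h2 : g x ≤ 0 := hx.2
          linarith
        · exact h1
      obtain ⟨y, hyA, hy⟩ := hA.exists_isMinOn ⟨x₁, hx₁⟩
        (f := fun x => g x / u x)
        (hgc.continuousOn.div huc.continuousOn fun x hx => (hApos x hx).ne')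
      have huy := hApos y hyA
      refine ⟨-(g y / u y), ?_⟩
      intro x hx
      by_cases hgx0 : g x ≤ 0
      · have h1 : g y / u y ≤ g x / u x := hy ⟨hx, hgx0⟩
        have h2 := hApos x ⟨hx, hgx0⟩
        rw [le_div_iff₀ h2] at h1
        linarith only [h1]
      · push Not at hgx0
        have h3 : g y / u y ≤ 0 := div_nonpos_of_nonpos_of_nonneg hyA.2 huy.le
        rcases le_or_gt 0 (u x) with h4 | h4
        · nlinarith only [hgx0, h3, h4]
        · have h5 := hcomb y hyA.1 x hx huy h4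
          have h6 : g x - (g y / u y) * u x = ((-u x) * g y + u y * g x) / (u y) := by
            have hne : u y ≠ 0 := huy.ne'
            field_simp
            ring
          have h7 : 0 < ((-u x) * g y + u y * g x) / (u y) := div_pos h5 huy
          linarith only [h6, h7]

end Normed

section General

variable {V : Type*} [AddCommGroup V] [Module ℝ V] [Module.Finite ℝ V]

variable {ι : Type*} (h : ι → V →ₗ[ℝ] ℝ) (ψ : V → ℝ) (hsub : IsSub ψ)
  (hψ : ∀ x, (∀ a, 0 ≤ h a x) → x ≠ 0 → 0 < ψ x)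

include hsub hψ in
lemma one_constraint
    (u : V →ₗ[ℝ] ℝ) (f : V → ℝ) (hfs : IsSub f)
    (hf : ∀ x, (∀ a, 0 ≤ h a x) → u x = 0 → 0 ≤ f x) (δ : ℝ) (hδ : 0 < δ) :
    ∃ t : ℝ, ∀ x, (∀ a, 0 ≤ h a x) → -(δ * ψ x) ≤ f x + t * u x := by
  let e := (Module.finBasis ℝ V).equivFun
  let _ : NormedAddCommGroup V := NormedAddCommGroup.induced V (Fin (finrank ℝ V) → ℝ) e e.injective
  let _ : NormedSpace ℝ V := NormedSpace.induced ℝ V (Fin (finrank ℝ V) → ℝ) e
  exact one_constraint_normed h ψ hsub hψ u f hfs hf δ hδ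

end General

section Flatness

universe v

/-- Cone theorem: a cone free of small lattice points is cut down to zero by boundedly many
lattice functionals which are bounded below by a multiple of `ψ`. -/
theorem cone_theorem (n : ℕ) : ∀ (Q : Type v) [AddCommGroup Q] [Module.Finite ℤ Q]
    {ι : Type*} (h : ι → Q) (ψ : (Q →ₗ[ℤ] ℝ) → ℝ) (_ : IsSub ψ)
    (_ : ∀ w : Q →ₗ[ℤ] ℝ, (∀ a, 0 ≤ w (h a)) → w ≠ 0 → 0 < ψ w) (ε : ℝ) (_ : 0 < ε)
    (_ : ∀ w : Q →ₗ[ℤ] ℤ, (∀ a, 0 ≤ toR w (h a)) → toR w ≠ 0 → ε ≤ ψ (toR w)),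
    finrank ℝ (Q →ₗ[ℤ] ℝ) = n →
    ∃ L : List Q, L.length = 2 * n ∧
      (∀ u ∈ L, ∀ w : Q →ₗ[ℤ] ℝ, (∀ a, 0 ≤ w (h a)) → -((Tc n / ε) * ψ w) ≤ w u) ∧
      ∀ w : Q →ₗ[ℤ] ℝ, (∀ a, 0 ≤ w (h a)) → w ≠ 0 → ∃ u ∈ L, w u < 0 := by
  induction n with
  | zero =>
    intro Q _ _ ι h ψ hsub hψ ε hε hlc hn
    refine ⟨[], rfl, by simp only [List.not_mem_nil, IsEmpty.forall_iff, implies_true], ?_⟩
    intro w _ hw
    exfalso
    have : Subsingleton (Q →ₗ[ℤ] ℝ) := Module.finrank_zero_iff.mp hn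
    exact hw (Subsingleton.elim _ _)
  | succ n ih =>
    intro Q _ _ ι h ψ hsub hψ ε hε hlc hn
    obtain ⟨u, hu, hub⟩ := key_lemma Q h ψ hsub hψ ε hε hlc (by omega)
    rw [hn] at hub
    let U := Submodule.span ℤ {u}
    have hn' : finrank ℝ ((Q ⧸ U) →ₗ[ℤ] ℝ) = n := by
      have := finrank_pull u hu
      change finrank ℝ ((Q ⧸ U) →ₗ[ℤ] ℝ) + 1 = _ at this
      omega
    have hpullu : ∀ w' : (Q ⧸ U) →ₗ[ℤ] ℝ, pull U w' u = 0 := by
      intro w'
      have h0 : U.mkQ u = 0 := by
        simp [U, Submodule.mem_span_singleton_self]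
      rw [pull_apply, h0, map_zero]
    have hψnn : ∀ w : Q →ₗ[ℤ] ℝ, (∀ a, 0 ≤ w (h a)) → 0 ≤ ψ w := by
      intro w hw
      by_cases hw0 : w = 0
      · subst hw0; simp [hsub.zero]
      · exact (hψ w hw hw0).le
    obtain ⟨L', hL'len, hL'b, hL'neg⟩ := ih (Q ⧸ U) (fun a => U.mkQ (h a)) (fun x => ψ (pull U x)) (hsub.comp (pull U))
      (by
        intro w hw hw0
        refine hψ (pull U w) hw ?_
        intro h0
        exact hw0 (pull_injective U (by rw [h0, map_zero])))
      ε hε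
      (by
        intro w hw hw0
        have h1 := hlc (w ∘ₗ U.mkQ) (by intro a; rw [toR_pull]; exact hw a)
          (by
            rw [toR_pull]
            intro h0
            exact hw0 (pull_injective U (by rw [h0, map_zero])))
        rw [toR_pull] at h1
        exact h1)
      hn'
    -- lifting
    have hlift : ∀ u' : Q ⧸ U, ∃ û : Q, U.mkQ û = u' ∧ (u' ∈ L' →
        ∀ w : Q →ₗ[ℤ] ℝ, (∀ a, 0 ≤ w (h a)) → -((Tc (n + 1) / ε) * ψ w) ≤ w û) := by
      intro u'
      obtain ⟨v, rfl⟩ := Submodule.mkQ_surjective U u'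
      by_cases hv : U.mkQ v ∈ L'
      · obtain ⟨t, ht⟩ := one_constraint (fun a => evalL (h a)) ψ hsub hψ (evalL u)
          (fun w => w v + (Tc n / ε) * ψ w)
          (hsub.add_linear (evalL v) (div_nonneg (Tc_nonneg n) hε.le))
          (by
            intro w hw hwu
            obtain ⟨w', rfl⟩ := exists_pull u w (by simpa only [evalL_apply] using hwu)
            have h1 := hL'b _ hv w' (by intro a; exact hw a)
            have h2 : (Tc n / ε) * ψ (pull U w') + w' (U.mkQ v) ≥ 0 := by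
              linarith only [h1]
            show 0 ≤ (pull U w') v + (Tc n / ε) * ψ (pull U w')
            rw [pull_apply]
            linarith only [h2])
          (1 / ε) (by positivity)
        let z : ℤ := round t
        have hz : |t - z| ≤ 1 / 2 := abs_sub_round t
        refine ⟨v + z • u, ?_, fun _ => ?_⟩
        · rw [map_add, map_smul]
          have h0 : U.mkQ u = 0 := by
            simp [U, Submodule.mem_span_singleton_self]
          rw [h0, smul_zero, add_zero]
        · intro w hw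
          have h1 := ht w hw
          have h2 : (evalL u) w = w u := rfl
          rw [h2] at h1
          have h3 : w (v + z • u) = w v + z * w u := by
            rw [map_add, map_smul]; simp
          rw [h3]
          have h4 : (z : ℝ) * w u = t * w u - (t - z) * w u := by ring
          have h5 : (t - z) * w u ≤ (1 / 2) * ((Kc (n + 1) / ε) * ψ w) := by
            calc (t - z) * w u ≤ |(t - z) * w u| := le_abs_self _
              _ = |t - z| * |w u| := abs_mul _ _
              _ ≤ (1 / 2) * ((Kc (n + 1) / ε) * ψ w) :=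
                mul_le_mul hz (hub w hw) (abs_nonneg _) (by norm_num)
          have h6 : (Tc (n + 1) / ε) * ψ w
              = (Tc n / ε) * ψ w + (Kc (n + 1) / ε) * ψ w + (1 / ε) * ψ w := by
            simp only [Tc]; ring
          have h7 : 0 ≤ (Kc (n + 1) / ε) * ψ w :=
            mul_nonneg (div_nonneg (Kc_nonneg _) hε.le) (hψnn w hw)
          rw [h6, h4]
          linarith only [h1, h5, h7]
      · exact ⟨v, rfl, fun h0 => absurd h0 hv⟩
    choose F hF1 hF2 using hlift
    refine ⟨u :: (-u) :: L'.map F, ?_, ?_, ?_⟩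
    · simp only [List.length_cons, List.length_map, hL'len]
      ring
    · intro x hx w hw
      have hK : |w u| ≤ (Tc (n + 1) / ε) * ψ w := by
        have h6 : (Tc (n + 1) / ε) * ψ w
            = (Kc (n + 1) / ε) * ψ w + ((Tc n + 1) / ε) * ψ w := by
          simp only [Tc]; ring
        have h7 : 0 ≤ ((Tc n + 1) / ε) * ψ w :=
          mul_nonneg (div_nonneg (by have := Tc_nonneg n; linarith only [this]) hε.le) (hψnn w hw)
        have := hub w hw
        linarith only [h6, h7, this]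
      simp only [List.mem_cons, List.mem_map] at hx
      rcases hx with rfl | rfl | ⟨y, hy, rfl⟩
      · exact (abs_le.mp hK).1
      · rw [map_neg]
        have := (abs_le.mp hK).2
        linarith only [this]
      · exact hF2 y hy w hw
    · intro w hw hw0
      rcases lt_trichotomy (w u) 0 with h1 | h1 | h1
      · exact ⟨u, by simp, h1⟩
      · obtain ⟨w', rfl⟩ := exists_pull u w h1
        have hw'0 : w' ≠ 0 := by
          rintro rfl
          exact hw0 (map_zero _)
        obtain ⟨y, hy, hy2⟩ := hL'neg w' (by intro a; exact hw a) hw'0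
        refine ⟨F y, ?_, ?_⟩
        · simp only [List.mem_cons, List.mem_map]
          exact Or.inr (Or.inr ⟨y, hy, rfl⟩)
        · rw [pull_apply]
          have : (Submodule.span ℤ {u}).mkQ (F y) = y := hF1 y
          rw [this]
          exact hy2
      · refine ⟨-u, by simp, ?_⟩
        rw [map_neg]
        linarith only [h1]


end Flatness

section Coord

variable {I : Type} [Fintype I] [DecidableEq I]
variable (M : Submodule ℤ (I → ℤ)) (r : ℕ) (hr : 0 < r) (hM : ∀ u : I → ℤ, (r : ℤ) • u ∈ M)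
  (U : Set (I → ℤ))

include hr hM in
/-- Coordinate version of the key lemma and of the cone theorem. -/
theorem coord_cone (hU : U ⊆ M) {κ : Type*} (h : κ → I → ℤ) (hh : ∀ a, h a ∈ M)
    (ψ : (I → ℝ) → ℝ) (hsub : IsSub ψ)
    (hψ : ∀ x ∈ perp U, (∀ a, 0 ≤ dot x (h a)) → x ≠ 0 → 0 < ψ x) (ε : ℝ) (hε : 0 < ε)
    (hlc : ∀ x ∈ perp U, (∀ a, 0 ≤ dot x (h a)) → (∀ u ∈ M, ∃ z : ℤ, dot x u = z) → x ≠ 0 →
      ε ≤ ψ x) (n : ℕ) (hn : finrank ℝ (perp U) = n) :
    (0 < n → ∃ u ∈ M, (∃ x ∈ perp U, dot x u ≠ 0) ∧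
      ∀ x ∈ perp U, (∀ a, 0 ≤ dot x (h a)) → |dot x u| ≤ (Kc n / ε) * ψ x) ∧
    ∃ L : List (I → ℤ), L.length = 2 * n ∧ (∀ u ∈ L, u ∈ M) ∧
      (∀ u ∈ L, ∀ x ∈ perp U, (∀ a, 0 ≤ dot x (h a)) → -((Tc n / ε) * ψ x) ≤ dot x u) ∧
      ∀ x ∈ perp U, (∀ a, 0 ≤ dot x (h a)) → x ≠ 0 → ∃ u ∈ L, dot x u < 0 := by
  let e : perp U ≃ₗ[ℝ] ((M ⧸ spanIn M U) →ₗ[ℤ] ℝ) :=
    LinearEquiv.ofBijective (toPt M U) (toPt_bijective M r hr hM U hU)
  have he : ∀ (x : perp U) (m : M), e x ((spanIn M U).mkQ m) = dot (x : I → ℝ) (m : I → ℤ) :=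
    fun x m => toPt_mk M U x m
  have hes : ∀ (w : (M ⧸ spanIn M U) →ₗ[ℤ] ℝ) (m : M),
      w ((spanIn M U).mkQ m) = dot ((e.symm w : perp U) : I → ℝ) (m : I → ℤ) := by
    intro w m
    rw [← he, LinearEquiv.apply_symm_apply]
  have hfin : finrank ℝ ((M ⧸ spanIn M U) →ₗ[ℤ] ℝ) = n := by
    rw [← hn]; exact e.symm.finrank_eq
  let h' : κ → (M ⧸ spanIn M U) := fun a => (spanIn M U).mkQ ⟨h a, hh a⟩
  let ψ' : ((M ⧸ spanIn M U) →ₗ[ℤ] ℝ) → ℝ := fun w => ψ ((e.symm w : perp U) : I → ℝ)
  have hsub' : IsSub ψ' := hsub.comp ((perp U).subtype ∘ₗ e.symm.toLinearMap)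
  have hψ' : ∀ w, ψ' w = ψ ((e.symm w : perp U) : I → ℝ) := fun w => rfl
  have hcone : ∀ w : (M ⧸ spanIn M U) →ₗ[ℤ] ℝ, (∀ a, 0 ≤ w (h' a)) →
      ∀ a, 0 ≤ dot ((e.symm w : perp U) : I → ℝ) (h a) := by
    intro w hw a
    have := hw a
    rw [hes w ⟨h a, hh a⟩] at this
    exact this
  have hcone' : ∀ x : perp U, (∀ a, 0 ≤ dot (x : I → ℝ) (h a)) → ∀ a, 0 ≤ e x (h' a) := by
    intro x hx a
    have := hx a
    rw [← he x ⟨h a, hh a⟩] at this
    exact this
  have hpos : ∀ w : (M ⧸ spanIn M U) →ₗ[ℤ] ℝ, (∀ a, 0 ≤ w (h' a)) → w ≠ 0 → 0 < ψ' w := by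
    intro w hw hw0
    rw [hψ']
    refine hψ _ (e.symm w).2 (hcone w hw) ?_
    intro h0
    apply hw0
    have : e.symm w = 0 := Subtype.ext h0
    simpa using this
  have hlc' : ∀ w : (M ⧸ spanIn M U) →ₗ[ℤ] ℤ, (∀ a, 0 ≤ toR w (h' a)) → toR w ≠ 0 →
      ε ≤ ψ' (toR w) := by
    intro w hw hw0
    rw [hψ']
    refine hlc _ (e.symm (toR w)).2 (hcone _ hw) ?_ ?_
    · intro u hu
      refine ⟨w ((spanIn M U).mkQ ⟨u, hu⟩), ?_⟩
      have := hes (toR w) ⟨u, hu⟩
      rw [toR_apply] at this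
      exact this.symm
    · intro h0
      apply hw0
      have : e.symm (toR w) = 0 := Subtype.ext h0
      simpa using this
  have : Module.Finite ℤ M := inferInstance
  constructor
  · intro hnpos
    obtain ⟨u', ⟨w, hw⟩, hub⟩ := key_lemma (M ⧸ spanIn M U) h' ψ' hsub' hpos ε hε hlc'
      (by rw [hfin]; exact hnpos)
    rw [hfin] at hub
    obtain ⟨u, rfl⟩ := Submodule.mkQ_surjective _ u'
    refine ⟨u, u.2, ⟨_, (e.symm w).2, ?_⟩, ?_⟩
    · rw [← hes]; exact hw
    · intro x hx hxc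
      have h1 := hub (e ⟨x, hx⟩) (hcone' ⟨x, hx⟩ hxc)
      rw [he, hψ', LinearEquiv.symm_apply_apply] at h1
      exact h1
  · obtain ⟨L, hLlen, hLb, hLneg⟩ := cone_theorem n (M ⧸ spanIn M U) h' ψ' hsub' hpos ε hε hlc' hfin
    have hsur := Submodule.mkQ_surjective (spanIn M U)
    choose F hF using hsur
    refine ⟨L.map (fun y => (F y : I → ℤ)), ?_, ?_, ?_, ?_⟩
    · rw [List.length_map, hLlen]
    · intro u hu
      obtain ⟨y, -, rfl⟩ := List.mem_map.mp hu
      exact (F y).2
    · intro u hu x hx hxc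
      obtain ⟨y, hy, rfl⟩ := List.mem_map.mp hu
      have h1 := hLb y hy (e ⟨x, hx⟩) (hcone' ⟨x, hx⟩ hxc)
      rw [hψ', LinearEquiv.symm_apply_apply] at h1
      have h2 : e ⟨x, hx⟩ y = dot x (F y : I → ℤ) := by
        have h3 := he ⟨x, hx⟩ (F y)
        rw [hF] at h3
        exact h3
      rw [h2] at h1
      exact h1
    · intro x hx hxc hx0
      obtain ⟨y, hy, hneg⟩ := hLneg (e ⟨x, hx⟩) (hcone' ⟨x, hx⟩ hxc)
        (by
          intro h0
          apply hx0
          have : (⟨x, hx⟩ : perp U) = 0 := by simpa using h0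
          exact congrArg Subtype.val this)
      refine ⟨(F y : I → ℤ), List.mem_map.mpr ⟨y, hy, rfl⟩, ?_⟩
      have h2 : e ⟨x, hx⟩ y = dot x (F y : I → ℤ) := by
        have h3 := he ⟨x, hx⟩ (F y)
        rw [hF] at h3
        exact h3
      rw [h2] at hneg
      exact hneg


end Coord

end Vale.Agent.P283.H207.F329
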