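import Vale.Agent.P283.H329.FSections
import Vale.Agent.P283.H207.Family

/-!
Monomial valuations with integral (possibly negative) weights.
-/

attribute [-instance] ProperSMul.toContinuousSMul IsTopologicalTorsor.toContinuousSMul IdemSemiring.toCanonicallyOrderedAdd IdemSemiring.toMulLeftMono IdemSemiring.toMulRightMono AddQuantale.instAddLeftMono AddQuantale.instAddRightMono Quantale.instMulLeftMono Quantale.instMulRightMono FiniteDimensional.rclike_to_real IsScalarTower.complexToReal FiniteDimensional.complexToReal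

set_option linter.all false
set_option linter.style.haveILetI false

open MvPolynomial

namespace Vale.Agent.P283.H207.F329

theorem exists_monomial_valuationZ {σ : Type} [Fintype σ] (a : σ → ℤ) (ha : a ≠ 0) :
    ∃ (w : AddValuation (FractionRing (MvPolynomial σ ℂ)) (WithTop ℤ)) (g : ℕ), 0 < g ∧
      (∀ c : ℂ, c ≠ 0 → w (algebraMap ℂ _ c) = 0) ∧
      (∃ E : σ → ℤ, w (mono E) = 1) ∧
      (∃ E : Fin (Fintype.card σ - 1) → σ → ℤ, ∀ P : MvPolynomial (Fin (Fintype.card σ - 1)) ℂ,
        P ≠ 0 → w (MvPolynomial.aeval (fun i => mono (E i)) P) = 0) ∧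
      ∀ p : MvPolynomial σ ℂ, p ≠ 0 → ∃ m ∈ p.support,
        g • w (algebraMap _ (FractionRing (MvPolynomial σ ℂ)) p)
          = ((∑ i, a i * m i : ℤ) : WithTop ℤ) ∧
        ∀ m' ∈ p.support, ∑ i, a i * (m i : ℤ) ≤ ∑ i, a i * (m' i : ℤ) := by
  classical
  -- the gcd of the weights
  let φ : (σ → ℤ) →+ ℤ :=
    { toFun := fun E => ∑ i, a i * E i
      map_zero' := by simp only [Pi.zero_apply, mul_zero, Finset.sum_const_zero]
      map_add' := fun x y => by simp only [Pi.add_apply, mul_add, Finset.sum_add_distrib] }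
  obtain ⟨g0, hg0⟩ := Int.subgroup_cyclic φ.range
  let g : ℕ := g0.natAbs
  have hmem : ∀ x, x ∈ φ.range ↔ (g : ℤ) ∣ x := by
    intro x
    rw [hg0, AddSubgroup.mem_closure_singleton]
    constructor
    · rintro ⟨n, rfl⟩
      rw [smul_eq_mul]
      exact Dvd.dvd.mul_left (Int.natAbs_dvd.mpr dvd_rfl) n
    · intro h
      obtain ⟨n, hn⟩ := Int.natAbs_dvd.mp h
      exact ⟨n, by rw [smul_eq_mul, hn, mul_comm]⟩
  have hdvd : ∀ i, (g : ℤ) ∣ a i := by
    intro i
    rw [← hmem]
    refine ⟨Pi.single i 1, ?_⟩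
    show ∑ j, a j * (Pi.single i (1 : ℤ) : σ → ℤ) j = a i
    simp [Pi.single_apply]
  obtain ⟨i0, hi0⟩ : ∃ i, a i ≠ 0 := by
    by_contra hcon
    push Not at hcon
    exact ha (funext hcon)
  have hg : 0 < g := by
    rcases Nat.eq_zero_or_pos g with h | h
    · exfalso
      have h1 := hdvd i0
      rw [h] at h1
      have : a i0 = 0 := by simpa using h1
      exact hi0 this
    · exact h
  choose b hb using hdvd
  obtain ⟨E1, hE1⟩ : ∃ E : σ → ℤ, ∑ i, b i * E i = 1 := by
    obtain ⟨E, hE⟩ := (hmem g).mpr dvd_rfl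
    refine ⟨E, ?_⟩
    have h1 : ∑ i, a i * E i = g := hE
    have h2 : (g : ℤ) * ∑ i, b i * E i = g * 1 := by
      rw [Finset.mul_sum, mul_one]
      refine Eq.trans ?_ h1
      exact Finset.sum_congr rfl fun i _ => by rw [hb i]; ring
    exact mul_left_cancel₀ (by exact_mod_cast hg.ne') h2
  have hmono : ∀ E : σ → ℤ, mono E = monoF (FractionRing (MvPolynomial σ ℂ)) E := fun E => rfl
  refine ⟨monoVal (FractionRing (MvPolynomial σ ℂ)) b, g, hg, ?_, ?_, ?_, ?_⟩
  · intro c hc
    rw [monoVal_apply, psi_const]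
    refine HahnSeries.orderTop_single ?_
    exact (map_ne_zero _).mpr hc
  · exact ⟨E1, by rw [hmono, monoVal_mono, hE1]; rfl⟩
  · -- residually transcendental elements
    let e : {j : σ // j ≠ i0} ≃ Fin (Fintype.card σ - 1) :=
      Fintype.equivFinOfCardEq (by rw [Fintype.card_subtype_compl, Fintype.card_subtype_eq])
    let E : Fin (Fintype.card σ - 1) → σ → ℤ := fun i =>
      (b i0) • Pi.single (e.symm i : σ) (1 : ℤ) - (b (e.symm i)) • Pi.single i0 (1 : ℤ)
    have hbi0 : b i0 ≠ 0 := by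
      intro h0
      have := hb i0
      rw [h0, mul_zero] at this
      exact hi0 this
    have hEb : ∀ i, ∑ j, b j * E i j = 0 := by
      intro i
      simp only [Pi.sub_apply, Pi.smul_apply, Pi.single_apply, smul_eq_mul, mul_ite, mul_one, mul_zero, mul_sub, Finset.sum_sub_distrib, Finset.sum_ite_eq', Finset.mem_univ, if_true, E]
      ring
    have hinj : Function.Injective (fun m : Fin (Fintype.card σ - 1) →₀ ℕ => ∑ i, m i • E i) := by
      intro m m' h
      have hval : ∀ (m : Fin (Fintype.card σ - 1) →₀ ℕ) (i : Fin (Fintype.card σ - 1)),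
          (∑ l, m l • E l) (e.symm i : σ) = m i * b i0 := by
        intro m i
        rw [Finset.sum_apply, Finset.sum_eq_single i]
        · have h1 : ((e.symm i : σ)) ≠ i0 := (e.symm i).2
          simp only [E, Pi.smul_apply, Pi.sub_apply, Pi.single_eq_same, smul_eq_mul, mul_one,
            Pi.single_eq_of_ne h1, mul_zero, sub_zero, nsmul_eq_mul]
        · intro l _ hl
          have h1 : ((e.symm i : σ)) ≠ i0 := (e.symm i).2
          have h2 : (e.symm i : σ) ≠ (e.symm l : σ) := by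
            intro h
            exact hl (e.symm.injective (Subtype.ext h)).symm
          simp only [Pi.smul_apply, Pi.sub_apply, Pi.single_eq_of_ne h2, smul_zero, Pi.single_eq_of_ne h1, sub_zero, E]
        · intro h; exact absurd (Finset.mem_univ _) h
      ext i
      have h1 := congrFun h (e.symm i : σ)
      simp only at h1
      rw [hval m i, hval m' i] at h1
      exact_mod_cast mul_right_cancel₀ hbi0 h1
    refine ⟨E, fun P hP => ?_⟩
    exact monoVal_aeval (FractionRing (MvPolynomial σ ℂ)) b E hEb hinj P hP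
  · intro p hp
    obtain ⟨m, hm, hmin⟩ := Finset.exists_min_image p.support (fun m => ∑ i, a i * (m i : ℤ))
      ((MvPolynomial.support_nonempty).mpr hp)
    have hwt : ∀ m : σ →₀ ℕ, (∑ i, a i * (m i : ℤ) : ℤ) = g * wt b m := by
      intro m
      rw [wt, Finset.mul_sum]
      exact Finset.sum_congr rfl fun i _ => by rw [hb i]; ring
    have hmin' : ∀ m' ∈ p.support, wt b m ≤ wt b m' := by
      intro m' hm'
      have h1 := hmin m' hm'
      rw [hwt, hwt] at h1
      exact le_of_mul_le_mul_left h1 (by exact_mod_cast hg)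
    refine ⟨m, hm, ?_, hmin⟩
    rw [monoVal_poly (FractionRing (MvPolynomial σ ℂ)) b p m hm hmin', hwt, ← WithTop.coe_nsmul,
      nsmul_eq_mul]

open scoped KaehlerDifferential
open Finset

section

variable {q k : ℕ} {L : Type} [Field L] [Algebra ℂ L] {t : Fin q ⊕ Fin k → L}

theorem exists_monomial_onZ (hd : 0 < q + k) (ht : IsCoords t) (a : Fin q ⊕ Fin k → ℤ)
    (ha : a ≠ 0) : ∃ (w : AddValuation L (WithTop ℤ)) (g' : ℕ), 0 < g' ∧
      IsDivisorial (q + k) w ∧ FormOrder (q + k) w (logForm t) (-1) ∧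
      ∀ p : MvPolynomial (Fin q ⊕ Fin k) ℂ, p ≠ 0 → ∃ m ∈ p.support,
        (g' : ℤ) * ov w (aeval t p) = ∑ i, a i * (m i : ℤ) ∧
        ∀ m' ∈ p.support, ∑ i, a i * (m i : ℤ) ≤ ∑ i, a i * (m' i : ℤ) := by
  classical
  obtain ⟨w', g', hg', hconst, ⟨E0, hE0⟩, hres, hpoly⟩ := exists_monomial_valuationZ a ha
  letI : Algebra (MvPolynomial (Fin q ⊕ Fin k) ℂ) L := algP t
  haveI := ht.isFractionRing
  let Φ : FractionRing (MvPolynomial (Fin q ⊕ Fin k) ℂ) ≃ₐ[MvPolynomial (Fin q ⊕ Fin k) ℂ] L :=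
    FractionRing.algEquiv (MvPolynomial (Fin q ⊕ Fin k) ℂ) L
  have hΦ : ∀ p : MvPolynomial (Fin q ⊕ Fin k) ℂ, Φ.symm (aeval t p) = algebraMap _ _ p :=
    fun p => Φ.symm.commutes p
  let w : AddValuation L (WithTop ℤ) := w'.comap (Φ.symm : L →+* _)
  have hw : ∀ f, w f = w' (Φ.symm f) := fun f => rfl
  have hmono : ∀ u, Φ.symm (monoT t u) = mono u := by
    intro u
    unfold monoT mono
    rw [map_prod]
    apply Finset.prod_congr rfl
    intro i _
    rw [map_zpow₀]
    congr 1
    have := hΦ (X i)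
    rwa [aeval_X] at this
  have hconst' : ∀ c : ℂ, c ≠ 0 → w (algebraMap ℂ L c) = 0 := by
    intro c hc
    rw [hw]
    have h1 := hΦ (C c)
    rw [algHom_C] at h1
    rw [h1]
    have h2 : algebraMap (MvPolynomial (Fin q ⊕ Fin k) ℂ)
        (FractionRing (MvPolynomial (Fin q ⊕ Fin k) ℂ)) (C c) = algebraMap ℂ _ c := by
      rw [IsScalarTower.algebraMap_apply ℂ (MvPolynomial (Fin q ⊕ Fin k) ℂ)
        (FractionRing (MvPolynomial (Fin q ⊕ Fin k) ℂ))]
      rfl
    rw [h2, hconst c hc]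
  have hres' : ∃ E1 : Fin (q + k - 1) → Fin q ⊕ Fin k → ℤ,
      ∀ P : MvPolynomial (Fin (q + k - 1)) ℂ, P ≠ 0 →
        w (aeval (fun i => monoT t (E1 i)) P) = 0 := by
    have hcard : Fintype.card (Fin q ⊕ Fin k) = q + k := by simp only [Fintype.card_sum, Fintype.card_fin, Nat.add_left_cancel_iff]
    rw [hcard] at hres
    obtain ⟨E1, hE1⟩ := hres
    refine ⟨E1, ?_⟩
    have h2 : ∀ c : ℂ, Φ.symm (algebraMap ℂ L c) = algebraMap ℂ _ c := by
      intro c
      have h1 := hΦ (C c)
      rw [algHom_C] at h1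
      rw [h1, IsScalarTower.algebraMap_apply ℂ (MvPolynomial (Fin q ⊕ Fin k) ℂ)
        (FractionRing (MvPolynomial (Fin q ⊕ Fin k) ℂ))]
      rfl
    have h1 : ∀ P : MvPolynomial (Fin (q + k - 1)) ℂ,
        Φ.symm (aeval (fun i => monoT t (E1 i)) P) = aeval (fun i => mono (E1 i)) P := by
      intro P
      induction P using MvPolynomial.induction_on with
      | C c => rw [algHom_C, algHom_C, h2]
      | add p q hp hq => rw [map_add, map_add, map_add, hp, hq]
      | mul_X p i hp => rw [map_mul, map_mul, map_mul, hp, aeval_X, aeval_X, hmono]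
    intro P hP
    rw [hw, h1, hE1 P hP]
  obtain ⟨E1, hE1⟩ := hres'
  have hE0' : w (monoT t E0) = 1 := by rw [hw, hmono, hE0]
  refine ⟨w, g', hg', ⟨hconst', ⟨_, hE0'⟩, ⟨_, hE1⟩⟩, ?_, ?_⟩
  · exact formOrder_dlog_mono ht hd _ hconst' E0 hE0' E1 hE1
  · intro p hp
    obtain ⟨m, hm, h1, h2⟩ := hpoly p hp
    refine ⟨m, hm, ?_, ?_⟩
    · have hp0 := ht.aeval_ne_zero hp
      have h3 : w (aeval t p) = w' (algebraMap _ _ p) := by rw [hw, hΦ]
      rw [← h3, ← coe_ov w hp0, ← WithTop.coe_nsmul] at h1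
      have h4 : g' • ov w (aeval t p) = (∑ i, a i * (m i : ℤ) : ℤ) := by exact_mod_cast h1
      rw [nsmul_eq_mul] at h4
      exact h4
    · intro m' hm'
      exact h2 m' hm'

end

end Vale.Agent.P283.H207.F329
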