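import Vale.Agent.P283.H329.FCone
import Vale.Agent.P283.H207.Sections

/-!
Existence of `2d` bounded semi-invariant sections when only some of the `z`-coordinates are
constrained to be nonnegative (positive dimensional fibres).
-/

attribute [-instance] ProperSMul.toContinuousSMul IsTopologicalTorsor.toContinuousSMul IdemSemiring.toCanonicallyOrderedAdd IdemSemiring.toMulLeftMono IdemSemiring.toMulRightMono AddQuantale.instAddLeftMono AddQuantale.instAddRightMono Quantale.instMulLeftMono Quantale.instMulRightMono FiniteDimensional.rclike_to_real IsScalarTower.complexToReal FiniteDimensional.complexToReal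

set_option linter.all false

open Module Set

namespace Vale.Agent.P283.H207.F329

variable {q k : ℕ}

/-- `x` lies in the cone of value vectors of monomial valuations centred on the hypersurface
`x_0⋯x_q = g(z)`, where only the coordinates `z_j` with `P j` are required to be regular. -/
def InConeP (P : Fin k → Prop) (S : Finset (Fin k → ℕ)) (x : Fin q ⊕ Fin k → ℝ) : Prop :=
  (∀ l, 0 ≤ x (Sum.inl l)) ∧ (∀ j, P j → 0 ≤ x (Sum.inr j)) ∧
    ∀ μ ∈ S, ∑ l, x (Sum.inl l) ≤ mdot μ x

/-- the `z`-part of the cone inside `perp U` -/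
def InSigP (P : Fin k → Prop) (U : Set (Fin q ⊕ Fin k → ℤ)) (x : Fin q ⊕ Fin k → ℝ) : Prop :=
  (∀ l, x (Sum.inl l) = 0) ∧ (∀ j, P j → 0 ≤ x (Sum.inr j)) ∧ x ∈ perp U

lemma mdot_nonnegP {P : Fin k → Prop} {S : Finset (Fin k → ℕ)}
    (hSP : ∀ μ ∈ S, ∀ j, ¬ P j → μ j = 0) {μ : Fin k → ℕ} (hμ : μ ∈ S)
    (x : Fin q ⊕ Fin k → ℝ) (h : ∀ j, P j → 0 ≤ x (Sum.inr j)) : 0 ≤ mdot μ x := by
  refine Finset.sum_nonneg fun j _ => ?_
  by_cases hj : P j
  · exact mul_nonneg (Nat.cast_nonneg _) (h j hj)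
  · rw [hSP μ hμ j hj]; simp

lemma InSigP.inCone {P : Fin k → Prop} {U : Set (Fin q ⊕ Fin k → ℤ)} {x : Fin q ⊕ Fin k → ℝ}
    (h : InSigP P U x) {S : Finset (Fin k → ℕ)} (hSP : ∀ μ ∈ S, ∀ j, ¬ P j → μ j = 0) :
    InConeP P S x := by
  refine ⟨fun l => (h.1 l).ge, h.2.1, ?_⟩
  intro μ hμ
  have : ∑ l, x (Sum.inl l) = 0 := Finset.sum_eq_zero fun l _ => h.1 l
  rw [this]
  exact mdot_nonnegP hSP hμ x h.2.1

/-- Rounding lemma. -/
lemma rounding (S : Finset (Fin k → ℕ)) (M : Submodule ℤ (Fin q ⊕ Fin k → ℤ))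
    (hSM : ∀ μ ∈ S, ∀ μ' ∈ S, (Sum.elim (fun _ => 0) (fun j => (μ j : ℤ) - μ' j)) ∈ M)
    (C : Set (Fin q ⊕ Fin k → ℝ)) (h0 : (0 : Fin q ⊕ Fin k → ℝ) ∈ C)
    (hadd : ∀ x ∈ C, ∀ y ∈ C, x + y ∈ C)
    (hsmul : ∀ c : ℝ, 0 ≤ c → ∀ x ∈ C, c • x ∈ C)
    (hmnn : ∀ x ∈ C, ∀ μ ∈ S, 0 ≤ mdot μ x)
    (f : (Fin q ⊕ Fin k → ℝ) → ℝ) (hfs : IsSub f) (n : ℕ)
    (hf : ∀ x ∈ C, ∃ μ ∈ S, (n : ℝ) * mdot μ x ≤ f x)
    (μs : Fin k → ℕ) (hμs : μs ∈ S) (B : (Fin q ⊕ Fin k → ℝ) → ℝ)
    (hB : ∀ x ∈ C, mdot μs x ≤ B x) :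
    ∃ ν : Fin k → ℕ,
      (∀ μ ∈ S, (Sum.elim (fun _ => 0) (fun j => (n : ℤ) * (μ j : ℤ) - ν j)) ∈ M) ∧
      (∀ (x : Fin q ⊕ Fin k → ℝ) (γ : ℝ), (∀ μ ∈ S, γ ≤ mdot μ x) → n * γ ≤ mdot ν x) ∧
      (∀ x ∈ C, mdot ν x ≤ f x + (k + 1) * B x) := by
  classical
  have hne : Nonempty S := ⟨⟨μs, hμs⟩⟩
  obtain ⟨l, hl0, hl1, hl⟩ := convex_alternative C h0 hadd hsmul
    (fun (a : S) x => f x - (n : ℝ) * mdot a.1 x)
    (by
      intro a
      refine ⟨?_, ?_⟩
      · intro x y
        have h1 := hfs.add x y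
        rw [mdot_add]
        linarith only [h1]
      · intro c x hc
        rw [hfs.smul _ _ hc, mdot_smul]; ring)
    (by
      intro x hx
      obtain ⟨μ, hμ, hle⟩ := hf x hx
      refine ⟨⟨μ, hμ⟩, ?_⟩
      show 0 ≤ f x - (n : ℝ) * mdot μ x
      linarith)
  let l₂ : (Fin k → ℕ) → ℝ := fun μ => if h : μ ∈ S then l ⟨μ, h⟩ else 0
  have hl₂ : ∀ a : S, l₂ a.1 = l a := fun a => by simp [l₂, a.2]
  obtain ⟨T, l', hTS, hTcard, hl'0, hl'1, hl'⟩ := caratheodory_nat S l₂
    (by intro μ hμ; have := hl₂ ⟨μ, hμ⟩; simp only at this; rw [this]; exact hl0 _)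
    (by
      rw [← Finset.sum_coe_sort S]
      rw [← hl1]
      exact Finset.sum_congr rfl fun a _ => hl₂ a)
  have hmain : ∀ x ∈ C, (n : ℝ) * ∑ μ ∈ T, l' μ * mdot μ x ≤ f x := by
    intro x hx
    have h1 := hl x hx
    have h2 : ∑ a : S, l a * (f x - (n : ℝ) * mdot a.1 x)
        = f x - n * ∑ a : S, l a * mdot a.1 x := by
      have h3 : ∀ a : S, l a * (f x - (n : ℝ) * mdot a.1 x)
          = l a * f x - n * (l a * mdot a.1 x) := by
        intro a
        show l a * (f x - (n : ℝ) * mdot a.1 x) = _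
        ring
      rw [Finset.sum_congr rfl fun a _ => h3 a, Finset.sum_sub_distrib, ← Finset.sum_mul, hl1,
        ← Finset.mul_sum, one_mul]
    rw [h2] at h1
    have h4 : ∑ a : S, l a * mdot a.1 x = ∑ μ ∈ T, l' μ * mdot μ x := by
      have h5 : ∑ a : S, l a * mdot a.1 x = ∑ μ ∈ S, l₂ μ * mdot μ x := by
        rw [← Finset.sum_coe_sort S]
        exact Finset.sum_congr rfl fun a _ => by rw [hl₂]
      rw [h5]
      simp only [mdot, Finset.mul_sum]
      rw [Finset.sum_comm, Finset.sum_comm (s := T)]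
      refine Finset.sum_congr rfl fun j _ => ?_
      have h6 := hl' j
      have h7 : ∀ (R : Finset (Fin k → ℕ)) (g : (Fin k → ℕ) → ℝ),
          ∑ μ ∈ R, g μ * ((μ j : ℝ) * x (Sum.inr j)) = (∑ μ ∈ R, g μ * (μ j : ℝ)) * x (Sum.inr j) := by
        intro R g
        rw [Finset.sum_mul]
        exact Finset.sum_congr rfl fun μ _ => by ring
      rw [h7, h7, h6]
    rw [h4] at h1
    linarith only [h1]
  -- rounding
  let a : (Fin k → ℕ) → ℕ := fun μ => ⌊(n : ℝ) * l' μ⌋₊
  have ha1 : ∀ μ ∈ T, (a μ : ℝ) ≤ n * l' μ := fun μ hμ =>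
    Nat.floor_le (mul_nonneg (Nat.cast_nonneg n) (hl'0 μ hμ))
  have ha2 : ∀ μ ∈ T, (n : ℝ) * l' μ - 1 ≤ a μ := fun μ _ => by
    have := Nat.lt_floor_add_one ((n : ℝ) * l' μ)
    simp only [a]
    linarith only [this]
  have hsumle : ∑ μ ∈ T, a μ ≤ n := by
    have h1 : (∑ μ ∈ T, (a μ : ℝ)) ≤ ∑ μ ∈ T, n * l' μ := Finset.sum_le_sum ha1
    rw [← Finset.mul_sum, hl'1, mul_one] at h1
    exact_mod_cast h1
  obtain ⟨ρ, hρ⟩ := Nat.exists_eq_add_of_le hsumle
  have hρle : (ρ : ℝ) ≤ k + 1 := by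
    have h1 : (∑ μ ∈ T, ((n : ℝ) * l' μ - 1)) ≤ ∑ μ ∈ T, (a μ : ℝ) := Finset.sum_le_sum ha2
    rw [Finset.sum_sub_distrib, ← Finset.mul_sum, hl'1, mul_one] at h1
    simp only [Finset.sum_const, nsmul_eq_mul, mul_one] at h1
    have h2 : (n : ℝ) = (∑ μ ∈ T, (a μ : ℝ)) + ρ := by
      have := congrArg (fun m : ℕ => (m : ℝ)) hρ
      push_cast at this
      exact this
    have h3 : (T.card : ℝ) ≤ k + 1 := by exact_mod_cast hTcard
    linarith only [h1, h2, h3]
  let ν : Fin k → ℕ := fun j => ∑ μ ∈ T, a μ * μ j + ρ * μs j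
  have hνdot : ∀ x : Fin q ⊕ Fin k → ℝ,
      mdot ν x = ∑ μ ∈ T, (a μ : ℝ) * mdot μ x + ρ * mdot μs x := by
    intro x
    simp only [mdot, Nat.cast_add, Nat.cast_sum, Nat.cast_mul, add_mul, Finset.sum_mul, Finset.sum_add_distrib, Finset.mul_sum, ν]
    rw [Finset.sum_comm]
    congr 1
    · exact Finset.sum_congr rfl fun μ _ => Finset.sum_congr rfl fun j _ => by ring
    · exact Finset.sum_congr rfl fun j _ => by ring
  refine ⟨ν, ?_, ?_, ?_⟩
  · intro μ' hμ'
    have h1 : (Sum.elim (fun _ => 0) (fun j => (n : ℤ) * (μ' j : ℤ) - ν j) : Fin q ⊕ Fin k → ℤ)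
        = ∑ μ ∈ T, (a μ : ℤ) • (Sum.elim (fun _ => 0) (fun j => (μ' j : ℤ) - μ j))
          + (ρ : ℤ) • (Sum.elim (fun _ => 0) (fun j => (μ' j : ℤ) - μs j)) := by
      ext i
      rcases i with i | j
      · simp only [Sum.elim_inl, zsmul_eq_mul, Int.cast_natCast, Pi.add_apply, Finset.sum_apply, Pi.mul_apply, Pi.natCast_apply, mul_zero, Finset.sum_const_zero, add_zero]
      · simp only [Sum.elim_inr, Pi.add_apply, Finset.sum_apply, Pi.smul_apply, smul_eq_mul, ν]
        push_cast
        have h2 : (n : ℤ) = ∑ μ ∈ T, (a μ : ℤ) + ρ := by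
          have := congrArg (fun m : ℕ => (m : ℤ)) hρ
          push_cast at this
          exact this
        rw [h2]
        simp only [mul_sub, Finset.sum_sub_distrib, add_mul, Finset.sum_mul]
        ring
    rw [h1]
    refine M.add_mem (M.sum_mem fun μ hμ => M.smul_mem _ (hSM μ' hμ' μ (hTS hμ))) ?_
    exact M.smul_mem _ (hSM μ' hμ' μs hμs)
  · intro x γ hγ
    rw [hνdot]
    have h2 : (n : ℝ) = (∑ μ ∈ T, (a μ : ℝ)) + ρ := by
      have := congrArg (fun m : ℕ => (m : ℝ)) hρ
      push_cast at this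
      exact this
    rw [h2, add_mul, Finset.sum_mul]
    refine add_le_add (Finset.sum_le_sum fun μ hμ => ?_) ?_
    · exact mul_le_mul_of_nonneg_left (hγ μ (hTS hμ)) (Nat.cast_nonneg _)
    · exact mul_le_mul_of_nonneg_left (hγ μs hμs) (Nat.cast_nonneg _)
  · intro x hx
    rw [hνdot]
    have h1 : ∑ μ ∈ T, (a μ : ℝ) * mdot μ x ≤ n * ∑ μ ∈ T, l' μ * mdot μ x := by
      rw [Finset.mul_sum]
      refine Finset.sum_le_sum fun μ hμ => ?_
      rw [← mul_assoc]
      exact mul_le_mul_of_nonneg_right (ha1 μ hμ) (hmnn x hx μ (hTS hμ))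
    have h2 := hmain x hx
    have h3 : (ρ : ℝ) * mdot μs x ≤ (k + 1) * B x := by
      have h4 : (ρ : ℝ) * mdot μs x ≤ (k + 1) * mdot μs x :=
        mul_le_mul_of_nonneg_right hρle (hmnn x hx μs hμs)
      have h5 : ((k : ℝ) + 1) * mdot μs x ≤ (k + 1) * B x :=
        mul_le_mul_of_nonneg_left (hB x hx) (by (clear * -; positivity))
      linarith only [h4, h5]
    linarith only [h1, h2, h3]


section Main

variable (M : Submodule ℤ (Fin q ⊕ Fin k → ℤ)) (r : ℕ) (hr : 0 < r)
  (hM : ∀ u : Fin q ⊕ Fin k → ℤ, (r : ℤ) • u ∈ M) (S : Finset (Fin k → ℕ)) (hSne : S.Nonempty)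
  (hSM : ∀ μ ∈ S, ∀ μ' ∈ S, (Sum.elim (fun _ => 0) (fun j => (μ j : ℤ) - μ' j)) ∈ M)
  (P : Fin k → Prop) (hSP : ∀ μ ∈ S, ∀ j, ¬ P j → μ j = 0)
  (Ψ : (Fin q ⊕ Fin k → ℝ) → ℝ) (hΨs : IsSub Ψ)
  (hΨz : ∀ x y : Fin q ⊕ Fin k → ℝ, (∀ j, x (Sum.inr j) = y (Sum.inr j)) → Ψ x = Ψ y)
  (hΨpos : ∀ x : Fin q ⊕ Fin k → ℝ, (∀ l, x (Sum.inl l) = 0) → (∀ j, P j → 0 ≤ x (Sum.inr j)) →
    x ≠ 0 → 0 < Ψ x) (ε : ℝ) (hε : 0 < ε)
  (hlc : ∀ x : Fin q ⊕ Fin k → ℝ, InConeP P S x → (∀ u ∈ M, ∃ z : ℤ, dot x u = z) → x ≠ 0 →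
    ε ≤ Ψ x)

/-- the functionals cutting out the cone -/
def hfamP : (Fin q ⊕ {j : Fin k // P j}) ⊕ S → Fin q ⊕ Fin k → ℤ
  | Sum.inl (Sum.inl l) => (r : ℤ) • Pi.single (Sum.inl l) 1
  | Sum.inl (Sum.inr j) => (r : ℤ) • Pi.single (Sum.inr j.1) 1
  | Sum.inr μ => (r : ℤ) • extv μ.1

include hr in
lemma inConeP_iff (x : Fin q ⊕ Fin k → ℝ) :
    InConeP P S x ↔ ∀ a, 0 ≤ dot x (hfamP r S P a) := by
  have hr' : (0 : ℝ) < r := by exact_mod_cast hr
  have h1 : ∀ i, dot x ((r : ℤ) • Pi.single i 1) = r * x i := by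
    intro i
    rw [dot_smul_right]
    simp only [Int.cast_natCast, dot, Pi.single_apply, Int.cast_ite, Int.cast_one, Int.cast_zero, mul_ite, mul_one, mul_zero, Finset.sum_ite_eq', Finset.mem_univ, ↓reduceIte]
  have h2 : ∀ μ : Fin k → ℕ, dot x ((r : ℤ) • extv μ) = r * (mdot μ x - ∑ l, x (Sum.inl l)) := by
    intro μ
    rw [dot_smul_right, dot_extv]
    simp only [Int.cast_natCast]
  constructor
  · rintro ⟨ha, hb, hc⟩ ((l | j) | μ)
    · show 0 ≤ dot x ((r : ℤ) • Pi.single (Sum.inl l) 1)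
      rw [h1]; exact mul_nonneg hr'.le (ha l)
    · show 0 ≤ dot x ((r : ℤ) • Pi.single (Sum.inr j.1) 1)
      rw [h1]; exact mul_nonneg hr'.le (hb j.1 j.2)
    · show 0 ≤ dot x ((r : ℤ) • extv μ.1)
      rw [h2]
      exact mul_nonneg hr'.le (sub_nonneg.mpr (hc μ.1 μ.2))
  · intro h
    refine ⟨fun l => ?_, fun j hj => ?_, fun μ hμ => ?_⟩
    · have := h (Sum.inl (Sum.inl l))
      change 0 ≤ dot x ((r : ℤ) • Pi.single (Sum.inl l) 1) at this
      rw [h1] at this
      exact (mul_nonneg_iff_of_pos_left hr').mp this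
    · have := h (Sum.inl (Sum.inr ⟨j, hj⟩))
      change 0 ≤ dot x ((r : ℤ) • Pi.single (Sum.inr j) 1) at this
      rw [h1] at this
      exact (mul_nonneg_iff_of_pos_left hr').mp this
    · have := h (Sum.inr ⟨μ, hμ⟩)
      change 0 ≤ dot x ((r : ℤ) • extv μ) at this
      rw [h2] at this
      have := (mul_nonneg_iff_of_pos_left hr').mp this
      linarith only [this]

lemma inSigP_dual (U : Set (Fin q ⊕ Fin k → ℤ)) (x : Fin q ⊕ Fin k → ℝ)
    (h : ∀ a : {ℓ : (Fin q ⊕ Fin k → ℝ) →ₗ[ℝ] ℝ // ∀ v, InSigP P U v → 0 ≤ ℓ v}, 0 ≤ a.1 x) :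
    InSigP P U x := by
  refine ⟨?_, ?_, ?_⟩
  · intro l
    have h1 := h ⟨LinearMap.proj (Sum.inl l), fun v hv => by
      simp only [LinearMap.proj_apply]; rw [hv.1 l]⟩
    have h2 := h ⟨-LinearMap.proj (Sum.inl l), fun v hv => by
      simp only [LinearMap.neg_apply, LinearMap.proj_apply]; rw [hv.1 l, neg_zero]⟩
    simp only [LinearMap.neg_apply, LinearMap.proj_apply] at h1 h2
    linarith
  · intro j hj
    have h1 := h ⟨LinearMap.proj (Sum.inr j), fun v hv => by
      simp only [LinearMap.proj_apply]; exact hv.2.1 j hj⟩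
    simpa only [ge_iff_le, LinearMap.coe_proj, Function.eval] using h1
  · intro u hu
    have h1 := h ⟨dotL u, fun v hv => by
      rw [dotL_apply, hv.2.2 u hu]⟩
    have h2 := h ⟨-dotL u, fun v hv => by
      rw [LinearMap.neg_apply, dotL_apply, hv.2.2 u hu, neg_zero]⟩
    simp only [LinearMap.neg_apply, dotL_apply] at h1 h2
    linarith

/-- the section data conditions -/
def GoodSec (U : Set (Fin q ⊕ Fin k → ℤ)) (B : ℝ) (s : ℕ × (Fin q ⊕ Fin k → ℤ)) : Prop :=
  (∀ l, 0 ≤ s.2 (Sum.inl l)) ∧ (s.1 = 0 ∨ ∃ l, s.2 (Sum.inl l) = 0) ∧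
    (∀ μ ∈ S, s.2 + (s.1 : ℤ) • extv μ ∈ M) ∧
    ∀ v, InSigP P U v → -(B * Ψ v) ≤ dot v s.2

include hΨs hΨz hΨpos hSne in
lemma psi_pos (x : Fin q ⊕ Fin k → ℝ) (hx : InConeP P S x) (hx0 : x ≠ 0) : 0 < Ψ x := by
  have h1 : Ψ x = Ψ (Sum.elim (fun _ => 0) fun j => x (Sum.inr j)) := hΨz _ _ fun j => rfl
  rw [h1]
  refine hΨpos _ (fun l => rfl) (fun j hj => hx.2.1 j hj) ?_
  intro h0
  apply hx0
  have h2 : ∀ j, x (Sum.inr j) = 0 := fun j => congrFun h0 (Sum.inr j)
  obtain ⟨μ, hμ⟩ := hSne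
  have h4 : mdot μ x = 0 := by simp only [mdot, h2, mul_zero, Finset.sum_const_zero]
  have h5 := hx.2.2 μ hμ
  rw [h4] at h5
  have h6 : ∀ l, x (Sum.inl l) = 0 := by
    intro l
    have h7 : ∑ l, x (Sum.inl l) = 0 :=
      le_antisymm h5 (Finset.sum_nonneg fun l _ => hx.1 l)
    exact (Finset.sum_eq_zero_iff_of_nonneg (fun l _ => hx.1 l)).mp h7 l
      (Finset.mem_univ l)
  ext i
  rcases i with l | j
  · exact h6 l
  · exact h2 j

include hr hM hSne hSM hSP hΨs hΨz hΨpos hε hlc in
theorem staged (n : ℕ) : ∀ U : Set (Fin q ⊕ Fin k → ℤ), U ⊆ M → (∀ u ∈ U, ∀ l, u (Sum.inl l) = 0) →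
    finrank ℝ (perp U) = n → ∃ L : List (ℕ × (Fin q ⊕ Fin k → ℤ)), L.length = 2 * n ∧
      (∀ s ∈ L, GoodSec M S P Ψ U (Fc (q + k) k n / ε) s) ∧
      ∀ x ∈ perp U, InConeP P S x → x ≠ 0 → ∃ s ∈ L, NegSec S s x := by
  induction n with
  | zero =>
    intro U _ _ hn
    refine ⟨[], rfl, by simp, ?_⟩
    intro x hx _ hx0
    exfalso
    have h1 : Subsingleton (perp U) := Module.finrank_zero_iff.mp hn
    have h2 : (⟨x, hx⟩ : perp U) = 0 := Subsingleton.elim _ _
    exact hx0 (congrArg Subtype.val h2)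
  | succ n ih =>
    intro U hU hUz hn
    have hpsi := psi_pos S hSne P Ψ hΨs hΨz hΨpos
    have hpsinn : ∀ x : Fin q ⊕ Fin k → ℝ, InConeP P S x → 0 ≤ Ψ x := by
      intro x hx
      by_cases hx0 : x = 0
      · subst hx0; rw [hΨs.zero]
      · exact (hpsi x hx hx0).le
    have hpsisig : ∀ x : Fin q ⊕ Fin k → ℝ,
        (∀ a : {ℓ : (Fin q ⊕ Fin k → ℝ) →ₗ[ℝ] ℝ // ∀ v, InSigP P U v → 0 ≤ ℓ v}, 0 ≤ a.1 x) →
        x ≠ 0 → 0 < Ψ x := fun x hx hx0 => hpsi x ((inSigP_dual P U x hx).inCone hSP) hx0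
    obtain ⟨hkey, L₀, hL₀len, hL₀M, hL₀b, hL₀neg⟩ := coord_cone M r hr hM U hU (hfamP r S P)
      (by
        rintro ((l | j) | μ)
        · exact hM _
        · exact hM _
        · exact hM _)
      Ψ hΨs
      (fun x _ hx hx0 => hpsi x ((inConeP_iff r hr S P x).mpr hx) hx0) ε hε
      (fun x _ hx hxM hx0 => hlc x ((inConeP_iff r hr S P x).mpr hx) hxM hx0) (n + 1) hn
    obtain ⟨u, huM, hune, hub'⟩ := hkey (Nat.succ_pos n)
    have hub : ∀ x ∈ perp U, InConeP P S x → |dot x u| ≤ (Kc (n + 1) / ε) * Ψ x :=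
      fun x hx hxc => hub' x hx ((inConeP_iff r hr S P x).mp hxc)
    have hKnn : 0 ≤ Kc (n + 1) / ε := div_nonneg (Kc_nonneg _) hε.le
    by_cases hcase : ∀ l, u (Sum.inl l) = 0
    · -- Case A: a direction in the `z` variables
      obtain ⟨L', hL'len, hL'good, hL'neg⟩ := ih (insert u U)
        (by
          rintro w (rfl | hw)
          · exact huM
          · exact hU hw)
        (by
          rintro w (rfl | hw)
          · exact hcase
          · exact hUz w hw)
        (by
          have := finrank_perp_insert U u hune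
          omega)
      have hlift : ∀ s : ℕ × (Fin q ⊕ Fin k → ℤ), ∃ z : ℤ, s ∈ L' →
          GoodSec M S P Ψ U (Fc (q + k) k (n + 1) / ε) (s.1, s.2 + z • u) := by
        intro s
        by_cases hs : s ∈ L'
        · obtain ⟨hs1, hs2, hs3, hs4⟩ := hL'good s hs
          obtain ⟨t, ht⟩ := one_constraint
            (fun a : {ℓ : (Fin q ⊕ Fin k → ℝ) →ₗ[ℝ] ℝ // ∀ v, InSigP P U v → 0 ≤ ℓ v} => a.1)
            Ψ hΨs hpsisig (dotL u) (fun x => dotL s.2 x + (Fc (q + k) k n / ε) * Ψ x)
            (hΨs.add_linear (dotL s.2) (div_nonneg (Fc_nonneg _ _ _) hε.le))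
            (by
              intro x hx hxu
              have hx' := inSigP_dual P U x hx
              have h1 : InSigP P (insert u U) x := by
                refine ⟨hx'.1, hx'.2.1, ?_⟩
                rintro w (rfl | hw)
                · simpa using hxu
                · exact hx'.2.2 w hw
              have h2 := hs4 x h1
              show 0 ≤ dot x s.2 + (Fc (q + k) k n / ε) * Ψ x
              linarith only [h2])
            (1 / ε) (by positivity)
          let z : ℤ := round t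
          have hz : |t - z| ≤ 1 / 2 := abs_sub_round t
          refine ⟨z, fun _ => ⟨?_, ?_, ?_, ?_⟩⟩
          · intro l
            simp only [Pi.add_apply, Pi.smul_apply, hcase l, smul_zero, add_zero]
            exact hs1 l
          · rcases hs2 with h | ⟨l, hl⟩
            · exact Or.inl h
            · refine Or.inr ⟨l, ?_⟩
              simp only [Pi.add_apply, Pi.smul_apply, hcase l, smul_zero, add_zero]
              exact hl
          · intro μ hμ
            have h1 : s.2 + z • u + (s.1 : ℤ) • extv μ = (s.2 + (s.1 : ℤ) • extv μ) + z • u := by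
              abel
            show s.2 + z • u + (s.1 : ℤ) • extv μ ∈ M
            rw [h1]
            exact M.add_mem (hs3 μ hμ) (M.smul_mem _ huM)
          · intro v hv
            have h1 := ht v (fun a => a.2 v hv)
            simp only [dotL_apply] at h1
            show -((Fc (q + k) k (n + 1) / ε) * Ψ v) ≤ dot v (s.2 + z • u)
            rw [dot_add_right, dot_smul_right]
            have h3 : (z : ℝ) * dot v u = t * dot v u - (t - z) * dot v u := by ring
            have h4 : (t - z) * dot v u ≤ (1 / 2) * ((Kc (n + 1) / ε) * Ψ v) := by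
              calc (t - z) * dot v u ≤ |(t - z) * dot v u| := le_abs_self _
                _ = |t - z| * |dot v u| := abs_mul _ _
                _ ≤ (1 / 2) * ((Kc (n + 1) / ε) * Ψ v) :=
                  mul_le_mul hz (hub v hv.2.2 (hv.inCone hSP)) (abs_nonneg _) (by norm_num)
            have h5 : (Fc (q + k) k (n + 1) / ε) * Ψ v
                = (Fc (q + k) k n / ε) * Ψ v + (Kc (n + 1) / ε) * Ψ v
                  + (1 / ε) * Ψ v
                  + ((Tc (n + 1) + (k + 1) * (2 * ((q + k : ℕ) : ℝ) ^ 2 * Kc (n + 1))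
                    + Kc (n + 1)) / ε) * Ψ v := by
              simp only [Fc]; ring
            have h6 : 0 ≤ Ψ v := hpsinn v (hv.inCone hSP)
            have h7 : 0 ≤ (Kc (n + 1) / ε) * Ψ v := mul_nonneg hKnn h6
            have h8 : 0 ≤ ((Tc (n + 1) + (k + 1) * (2 * ((q + k : ℕ) : ℝ) ^ 2 * Kc (n + 1))
                    + Kc (n + 1)) / ε) * Ψ v := by
              have := Tc_nonneg (n + 1)
              have := Kc_nonneg (n + 1)
              positivity
            rw [h5, h3]
            linarith only [h1, h4, h7, h8]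
        · exact ⟨0, fun h => absurd h hs⟩
      choose F hF using hlift
      refine ⟨(0, u) :: (0, -u) :: L'.map (fun s => (s.1, s.2 + F s • u)), ?_, ?_, ?_⟩
      · simp only [List.length_cons, List.length_map, hL'len]
        ring
      · have hbase : ∀ w : Fin q ⊕ Fin k → ℤ, (w = u ∨ w = -u) →
            GoodSec M S P Ψ U (Fc (q + k) k (n + 1) / ε) (0, w) := by
          intro w hw
          have hwz : ∀ l, w (Sum.inl l) = 0 := by
            intro l
            rcases hw with rfl | rfl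
            · exact hcase l
            · simp [hcase l]
          have hwM : w ∈ M := by
            rcases hw with rfl | rfl
            · exact huM
            · exact M.neg_mem huM
          refine ⟨fun l => (hwz l).ge, Or.inl rfl, ?_, ?_⟩
          · intro μ _
            simpa using hwM
          · intro v hv
            have h1 : |dot v w| ≤ (Kc (n + 1) / ε) * Ψ v := by
              rcases hw with rfl | rfl
              · exact hub v hv.2.2 (hv.inCone hSP)
              · rw [dot_neg_right, abs_neg]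
                exact hub v hv.2.2 (hv.inCone hSP)
            have h5 : (Fc (q + k) k (n + 1) / ε) * Ψ v
                = (Kc (n + 1) / ε) * Ψ v
                  + ((Fc (q + k) k n + Tc (n + 1)
                    + (k + 1) * (2 * ((q + k : ℕ) : ℝ) ^ 2 * Kc (n + 1))
                    + Kc (n + 1) + 1) / ε) * Ψ v := by
              simp only [Fc]; ring
            have h6 : 0 ≤ Ψ v := hpsinn v (hv.inCone hSP)
            have h8 : 0 ≤ ((Fc (q + k) k n + Tc (n + 1)
                    + (k + 1) * (2 * ((q + k : ℕ) : ℝ) ^ 2 * Kc (n + 1))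
                    + Kc (n + 1) + 1) / ε) * Ψ v := by
              have := Tc_nonneg (n + 1)
              have := Kc_nonneg (n + 1)
              have := Fc_nonneg (q + k) k n
              positivity
            have h9 := (abs_le.mp h1).1
            show -((Fc (q + k) k (n + 1) / ε) * Ψ v) ≤ dot v w
            rw [h5]
            linarith only [h8, h9]
        intro s hs
        simp only [List.mem_cons, List.mem_map] at hs
        rcases hs with rfl | rfl | ⟨s', hs', rfl⟩
        · exact hbase u (Or.inl rfl)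
        · exact hbase (-u) (Or.inr rfl)
        · exact hF s' hs'
      · intro x hx hxc hx0
        rcases lt_trichotomy (dot x u) 0 with h1 | h1 | h1
        · refine ⟨(0, u), by simp only [zsmul_eq_mul, List.mem_cons, Prod.mk.injEq, true_and, List.mem_map, Prod.exists, ↓existsAndEq, true_or], ?_⟩
          intro γ _
          simpa only [CharP.cast_eq_zero, zero_mul, zero_add] using h1
        · have hx' : x ∈ perp (insert u U) := by
            rintro w (rfl | hw)
            · exact h1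
            · exact hx w hw
          obtain ⟨s, hs, hsneg⟩ := hL'neg x hx' hxc hx0
          refine ⟨(s.1, s.2 + F s • u), ?_, ?_⟩
          · simp only [List.mem_cons, List.mem_map]
            exact Or.inr (Or.inr ⟨s, hs, rfl⟩)
          · intro γ hγ
            have h2 := hsneg γ hγ
            show (s.1 : ℝ) * (γ - ∑ l, x (Sum.inl l)) + dot x (s.2 + F s • u) < 0
            rw [dot_add_right, dot_smul_right, h1, mul_zero, add_zero]
            exact h2
        · refine ⟨(0, -u), by simp only [zsmul_eq_mul, List.mem_cons, Prod.mk.injEq, true_and, List.mem_map, Prod.exists, ↓existsAndEq, true_or, or_true], ?_⟩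
          intro γ _
          simp only [Nat.cast_zero, zero_mul, zero_add]
          rw [dot_neg_right]
          linarith only [h1]
    · -- Case B: a direction involving the `x` variables
      push Not at hcase
      obtain ⟨l₀, hl₀⟩ := hcase
      -- moving a point of the `z`-cone up to the boundary
      have hmove : ∀ x, InSigP P U x → ∀ γ : ℝ, 0 ≤ γ → (∀ μ ∈ S, γ ≤ mdot μ x) → ∀ l : Fin q,
          (x + Pi.single (Sum.inl l) γ ∈ perp U) ∧ InConeP P S (x + Pi.single (Sum.inl l) γ) ∧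
          Ψ (x + Pi.single (Sum.inl l) γ) = Ψ x ∧
          ∀ w : Fin q ⊕ Fin k → ℤ, dot (x + Pi.single (Sum.inl l) γ) w
            = dot x w + γ * w (Sum.inl l) := by
        intro x hx γ hγ0 hγ l
        have hdot : ∀ w : Fin q ⊕ Fin k → ℤ, dot (x + Pi.single (Sum.inl l) γ) w
            = dot x w + γ * w (Sum.inl l) := by
          intro w
          have h1 := (dotL w).map_add x (Pi.single (Sum.inl l) γ)
          simp only [dotL_apply] at h1
          rw [h1]
          congr 1
          simp only [dot, Pi.single_apply, ite_mul, zero_mul, Finset.sum_ite_eq', Finset.mem_univ, ↓reduceIte]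
        refine ⟨?_, ⟨?_, ?_, ?_⟩, ?_, hdot⟩
        · intro w hw
          rw [hdot, hx.2.2 w hw, hUz w hw l]
          simp
        · intro l'
          simp only [Pi.add_apply, hx.1, zero_add]
          by_cases hi : l' = l
          · subst hi; simpa only [Pi.single_eq_same] using hγ0
          · have : (Sum.inl l' : Fin q ⊕ Fin k) ≠ Sum.inl l := fun h => hi (Sum.inl.inj h)
            rw [Pi.single_eq_of_ne this]
        · intro j hj
          simp only [Pi.add_apply, ne_eq, reduceCtorEq, not_false_eq_true, Pi.single_eq_of_ne, add_zero]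
          exact hx.2.1 j hj
        · intro μ hμ
          rw [mdot_add, mdot_single_inl, add_zero]
          have h1 : ∑ l', (x + Pi.single (Sum.inl l) γ : Fin q ⊕ Fin k → ℝ) (Sum.inl l') = γ := by
            simp only [Pi.add_apply, hx.1, zero_add, Pi.single_apply, Sum.inl.injEq]
            simp only [Finset.sum_ite_eq', Finset.mem_univ, ↓reduceIte]
          rw [h1]
          exact hγ μ hμ
        · refine hΨz _ _ fun j => ?_
          simp only [Pi.add_apply, ne_eq, reduceCtorEq, not_false_eq_true, Pi.single_eq_of_ne, add_zero]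
      have hmin : ∀ x : Fin q ⊕ Fin k → ℝ, ∃ μ ∈ S, ∀ μ' ∈ S, mdot μ x ≤ mdot μ' x := fun x =>
        Finset.exists_min_image S (fun μ => mdot μ x) hSne
      -- `g` is bounded on the current face
      have hg : ∀ x, InSigP P U x → ∀ μ ∈ S, (∀ μ' ∈ S, mdot μ x ≤ mdot μ' x) →
          mdot μ x ≤ 2 * (Kc (n + 1) / ε) * Ψ x := by
        intro x hx μ hμ hμmin
        obtain ⟨h1, h2, h3, h4⟩ := hmove x hx (mdot μ x) (mdot_nonnegP hSP hμ x hx.2.1) hμmin l₀
        have h5 := hub _ h1 h2
        rw [h3, h4] at h5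
        have h6 := hub x hx.2.2 (hx.inCone hSP)
        have h7 : |mdot μ x * (u (Sum.inl l₀) : ℝ)| ≤ 2 * ((Kc (n + 1) / ε) * Ψ x) := by
          have h8 : mdot μ x * (u (Sum.inl l₀) : ℝ)
              = (dot x u + mdot μ x * (u (Sum.inl l₀) : ℝ)) - dot x u := by ring
          rw [h8]
          refine (abs_sub _ _).trans ?_
          linarith only [h5, h6]
        have h8 : (1 : ℝ) ≤ |(u (Sum.inl l₀) : ℝ)| := by
          have : (1 : ℤ) ≤ |u (Sum.inl l₀)| := Int.one_le_abs hl₀
          exact_mod_cast this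
        rw [abs_mul, abs_of_nonneg (mdot_nonnegP hSP hμ x hx.2.1)] at h7
        have h9 : mdot μ x ≤ mdot μ x * |(u (Sum.inl l₀) : ℝ)| :=
          le_mul_of_one_le_right (mdot_nonnegP hSP hμ x hx.2.1) h8
        linarith only [h7, h9]
      -- Auerbach vectors
      obtain ⟨e, v, he, hv, -, hvx⟩ := auerbach
        (fun a : {ℓ : (Fin q ⊕ Fin k → ℝ) →ₗ[ℝ] ℝ // ∀ v, InSigP P U v → 0 ≤ ℓ v} => a.1)
        Ψ hΨs hpsisig
      have hvsig : ∀ i, InSigP P U (v i) := fun i => inSigP_dual P U (v i) (hv i).1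
      have heD : (e : ℝ) ≤ ((q + k : ℕ) : ℝ) := by
        have h1 : finrank ℝ (Fin q ⊕ Fin k → ℝ) = q + k := by
          rw [finrank_fintype_fun_eq_card]; simp only [Fintype.card_sum, Fintype.card_fin, Nat.add_left_cancel_iff]
        rw [h1] at he
        exact_mod_cast he
      have hadd : ∀ x ∈ {x | InSigP P U x}, ∀ y ∈ {x | InSigP P U x}, x + y ∈ {x | InSigP P U x} := by
        intro x hx y hy
        refine ⟨fun l => ?_, fun j hj => ?_, (perp U).add_mem hx.2.2 hy.2.2⟩
        · simp [hx.1 l, hy.1 l]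
        · exact add_nonneg (hx.2.1 j hj) (hy.2.1 j hj)
      have hsmul : ∀ a : ℝ, 0 ≤ a → ∀ x ∈ {x | InSigP P U x}, a • x ∈ {x | InSigP P U x} := by
        intro a ha x hx
        refine ⟨fun l => ?_, fun j hj => ?_, (perp U).smul_mem a hx.2.2⟩
        · simp [hx.1 l]
        · exact mul_nonneg ha (hx.2.1 j hj)
      have hzero : (0 : Fin q ⊕ Fin k → ℝ) ∈ {x | InSigP P U x} :=
        ⟨fun l => rfl, fun j _ => le_refl _, (perp U).zero_mem⟩
      have hsum : InSigP P U (∑ i, v i) := by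
        have : ∀ s : Finset (Fin e), (∑ i ∈ s, v i) ∈ {x | InSigP P U x} := by
          intro s
          induction s using Finset.induction_on with
          | empty => simpa using hzero
          | insert a s ha ih => rw [Finset.sum_insert ha]; exact hadd _ (hvsig a) _ ih
        exact this _
      obtain ⟨μs, hμs, hμsmin⟩ := hmin (∑ i, v i)
      let Bc : ℝ := 2 * ((q + k : ℕ) : ℝ) ^ 2 * Kc (n + 1) / ε
      have hBc : 0 ≤ Bc := by
        have := Kc_nonneg (n + 1)
        (clear * - this hε; positivity)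
      have hB : ∀ x ∈ {x | InSigP P U x}, mdot μs x ≤ Bc * Ψ x := by
        intro x hx
        obtain ⟨t, ht, hxt⟩ := hvx x (fun a => a.2 x hx)
        have h1 := hg _ hsum μs hμs hμsmin
        have h2 : Ψ (∑ i, v i) ≤ e := by
          refine (hΨs.sum _ _).trans (le_of_eq ?_)
          rw [Finset.sum_congr rfl fun i _ => (hv i).2]
          simp only [Finset.sum_const, Finset.card_univ, Fintype.card_fin, nsmul_eq_mul, mul_one]
        replace h1 := h1.trans (mul_le_mul_of_nonneg_left h2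
          (mul_nonneg (by norm_num) hKnn : (0 : ℝ) ≤ 2 * (Kc (n + 1) / ε)))
        have h3 : ∀ i, mdot μs (v i) ≤ 2 * (Kc (n + 1) / ε) * e := by
          intro i
          refine le_trans ?_ h1
          rw [mdot_sum]
          exact Finset.single_le_sum (f := fun i => mdot μs (v i))
            (fun i _ => mdot_nonnegP hSP hμs (v i) (hvsig i).2.1) (Finset.mem_univ i)
        have hψx : 0 ≤ Ψ x := hpsinn x (hx.inCone hSP)
        calc mdot μs x = mdot μs (∑ i, t i • v i) := by rw [← hxt]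
          _ = ∑ i, t i * mdot μs (v i) := by
              rw [mdot_sum]; exact Finset.sum_congr rfl fun i _ => mdot_smul _ _ _
          _ ≤ ∑ _i : Fin e, Ψ x * (2 * (Kc (n + 1) / ε) * e) := by
              refine Finset.sum_le_sum fun i _ => ?_
              have h4 : 0 ≤ mdot μs (v i) := mdot_nonnegP hSP hμs (v i) (hvsig i).2.1
              calc t i * mdot μs (v i) ≤ |t i| * mdot μs (v i) :=
                    mul_le_mul_of_nonneg_right (le_abs_self _) h4
                _ ≤ Ψ x * mdot μs (v i) := mul_le_mul_of_nonneg_right (ht i) h4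
                _ ≤ _ := mul_le_mul_of_nonneg_left (h3 i) hψx
          _ = (2 * (Kc (n + 1) / ε) * Ψ x) * ((e : ℝ) ^ 2) := by
              simp only [Finset.sum_const, Finset.card_univ, Fintype.card_fin, nsmul_eq_mul]; ring
          _ ≤ (2 * (Kc (n + 1) / ε) * Ψ x) * (((q + k : ℕ) : ℝ) ^ 2) := by
              refine mul_le_mul_of_nonneg_left ?_ (by (clear * - hKnn hψx; positivity))
              exact pow_le_pow_left₀ (Nat.cast_nonneg e) heD 2
          _ = Bc * Ψ x := by simp only [Bc]; ring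
      -- realizing a functional by a section
      have hreal : ∀ w : Fin q ⊕ Fin k → ℤ, ∃ s : ℕ × (Fin q ⊕ Fin k → ℤ), w ∈ L₀ →
          GoodSec M S P Ψ U (Fc (q + k) k (n + 1) / ε) s ∧
          ∀ x ∈ perp U, InConeP P S x → dot x w < 0 → NegSec S s x := by
        intro w
        by_cases hw : w ∈ L₀
        · have hwM := hL₀M w hw
          have hwb : ∀ x ∈ perp U, InConeP P S x → -((Tc (n + 1) / ε) * Ψ x) ≤ dot x w :=
            fun x hx hxc => hL₀b w hw x hx ((inConeP_iff r hr S P x).mp hxc)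
          let j : ℕ := Finset.univ.sup (fun l => (-w (Sum.inl l)).toNat)
          have hj1 : ∀ l, -w (Sum.inl l) ≤ j := by
            intro l
            have h1 : (-w (Sum.inl l)).toNat ≤ j :=
              Finset.le_sup (f := fun l => (-w (Sum.inl l)).toNat) (Finset.mem_univ l)
            have h2 := Int.self_le_toNat (-w (Sum.inl l))
            omega
          have hj2 : j = 0 ∨ ∃ l, w (Sum.inl l) = -j := by
            rcases Nat.eq_zero_or_pos j with h0 | h0
            · exact Or.inl h0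
            · right
              have hne : (Finset.univ : Finset (Fin q)).Nonempty := by
                by_contra hcon
                rw [Finset.not_nonempty_iff_eq_empty] at hcon
                simp only [hcon, Finset.sup_empty, Nat.bot_eq_zero, gt_iff_lt, lt_self_iff_false, j] at h0
              obtain ⟨l, _, hl⟩ := Finset.exists_mem_eq_sup _ hne
                (fun l => (-w (Sum.inl l)).toNat)
              refine ⟨l, ?_⟩
              have h1 : j = (-w (Sum.inl l)).toNat := hl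
              omega
          obtain ⟨ν, hν1, hν2, hν3⟩ := rounding S M hSM {x | InSigP P U x} hzero hadd hsmul
            (fun x hx μ hμ => mdot_nonnegP hSP hμ x hx.2.1) (fun x => dotL w x + (Tc (n + 1) / ε) * Ψ x)
            (hΨs.add_linear (dotL w) (div_nonneg (Tc_nonneg _) hε.le)) j
            (by
              intro x hx
              obtain ⟨μ, hμ, hμmin⟩ := hmin x
              refine ⟨μ, hμ, ?_⟩
              show (j : ℝ) * mdot μ x ≤ dot x w + (Tc (n + 1) / ε) * Ψ x
              rcases hj2 with h0 | ⟨l, hl⟩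
              · rw [h0]
                have := hwb x hx.2.2 (hx.inCone hSP)
                simp only [Nat.cast_zero, zero_mul]
                linarith only [this]
              · obtain ⟨h1, h2, h3, h4⟩ := hmove x hx (mdot μ x) (mdot_nonnegP hSP hμ x hx.2.1) hμmin l
                have h5 := hwb _ h1 h2
                rw [h3, h4, hl] at h5
                push_cast at h5
                linarith only [h5])
            μs hμs (fun x => Bc * Ψ x) hB
          refine ⟨(j, Sum.elim (fun l => w (Sum.inl l) + j) (fun i => w (Sum.inr i) - ν i)),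
            fun _ => ⟨⟨?_, ?_, ?_, ?_⟩, ?_⟩⟩
          · intro l
            simp only [Sum.elim_inl]
            have := hj1 l
            linarith only [this]
          · rcases hj2 with h0 | ⟨l, hl⟩
            · exact Or.inl h0
            · refine Or.inr ⟨l, ?_⟩
              simp only [Sum.elim_inl, hl]
              ring
          · intro μ hμ
            have h1 : (Sum.elim (fun l => w (Sum.inl l) + j) (fun i => w (Sum.inr i) - ν i)
                + (j : ℤ) • extv μ : Fin q ⊕ Fin k → ℤ)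
                = w + Sum.elim (fun _ => 0) (fun i => (j : ℤ) * (μ i : ℤ) - ν i) := by
              ext i
              rcases i with l | i
              · simp only [extv, Int.reduceNeg, zsmul_eq_mul, Int.cast_natCast, Pi.add_apply, Sum.elim_inl, Pi.mul_apply, Pi.natCast_apply, mul_neg, mul_one, add_neg_cancel_right, add_zero]
              · simp only [extv, Pi.add_apply, Pi.smul_apply, Sum.elim_inr, smul_eq_mul]
                ring
            show (Sum.elim (fun l => w (Sum.inl l) + j) (fun i => w (Sum.inr i) - ν i)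
                + (j : ℤ) • extv μ : Fin q ⊕ Fin k → ℤ) ∈ M
            rw [h1]
            exact M.add_mem hwM (hν1 μ hμ)
          · intro x hx
            have h1 : dot x (Sum.elim (fun l => w (Sum.inl l) + (j : ℤ))
                (fun i => w (Sum.inr i) - (ν i : ℤ))) = dot x w - mdot ν x := by
              simp only [dot, mdot, Fintype.sum_sum_type, Sum.elim_inl, Sum.elim_inr, hx.1,
                zero_mul, Finset.sum_const_zero, zero_add]
              rw [← Finset.sum_sub_distrib]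
              refine Finset.sum_congr rfl fun i _ => ?_
              push_cast
              ring
            show -((Fc (q + k) k (n + 1) / ε) * Ψ x) ≤ dot x _
            rw [h1]
            have h2 := hν3 x hx
            simp only [dotL_apply] at h2
            have h5 : (Fc (q + k) k (n + 1) / ε) * Ψ x
                = (Tc (n + 1) / ε) * Ψ x + (k + 1) * (Bc * Ψ x)
                  + ((Fc (q + k) k n + 2 * Kc (n + 1) + 1) / ε) * Ψ x := by
              simp only [Fc, Bc]; ring
            have h6 : 0 ≤ Ψ x := hpsinn x (hx.inCone hSP)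
            have h8 : 0 ≤ ((Fc (q + k) k n + 2 * Kc (n + 1) + 1) / ε) * Ψ x := by
              have := Kc_nonneg (n + 1)
              have := Fc_nonneg (q + k) k n
              positivity
            rw [h5]
            linarith only [h2, h8]
          · intro x _ _ hneg γ hγ
            have h1 : dot x (Sum.elim (fun l => w (Sum.inl l) + (j : ℤ))
                (fun i => w (Sum.inr i) - (ν i : ℤ)))
                = dot x w + j * (∑ l, x (Sum.inl l)) - mdot ν x := by
              simp only [dot, mdot, Fintype.sum_sum_type, Sum.elim_inl, Sum.elim_inr]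
              rw [Finset.mul_sum]
              have h2 : ∀ l, x (Sum.inl l) * ((w (Sum.inl l) + (j : ℤ) : ℤ) : ℝ)
                  = x (Sum.inl l) * (w (Sum.inl l) : ℝ) + j * x (Sum.inl l) := by
                intro l; push_cast; ring
              have h3 : ∀ i, x (Sum.inr i) * ((w (Sum.inr i) - (ν i : ℤ) : ℤ) : ℝ)
                  = x (Sum.inr i) * (w (Sum.inr i) : ℝ) - ν i * x (Sum.inr i) := by
                intro i; push_cast; ring
              simp only [h2, h3, Finset.sum_add_distrib, Finset.sum_sub_distrib]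
              ring
            show (j : ℝ) * (γ - ∑ l, x (Sum.inl l)) + dot x _ < 0
            rw [h1]
            have h2 := hν2 x γ hγ
            linarith only [hneg, h2]
        · exact ⟨(0, 0), fun h => absurd h hw⟩
      choose F hF using hreal
      refine ⟨L₀.map F, by rw [List.length_map, hL₀len], ?_, ?_⟩
      · intro s hs
        obtain ⟨w, hw, rfl⟩ := List.mem_map.mp hs
        exact (hF w hw).1
      · intro x hx hxc hx0
        obtain ⟨w, hw, hneg⟩ := hL₀neg x hx ((inConeP_iff r hr S P x).mp hxc) hx0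
        exact ⟨F w, List.mem_map.mpr ⟨w, hw, rfl⟩, (hF w hw).2 x hx hxc hneg⟩

end Main

/-- Existence of `2d` bounded semi-invariant sections. -/
theorem sections_existP (q k : ℕ) : ∃ C : ℝ, 0 ≤ C ∧ ∀ ε : ℝ, 0 < ε →
    ∀ (M : AddSubgroup (Fin q ⊕ Fin k → ℤ)) (r : ℕ), 0 < r → (∀ u, (r:ℤ) • u ∈ M) →
    ∀ (S : Finset (Fin k → ℕ)), S.Nonempty →
      (∀ μ ∈ S, ∀ μ' ∈ S, (Sum.elim (fun _ => 0) (fun j => (μ j : ℤ) - μ' j)) ∈ M) →
    ∀ (P : Fin k → Prop), (∀ μ ∈ S, ∀ j, ¬ P j → μ j = 0) →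
    ∀ (Ψ : (Fin q ⊕ Fin k → ℝ) → ℝ), IsSub Ψ →
      (∀ x y : Fin q ⊕ Fin k → ℝ, (∀ j, x (Sum.inr j) = y (Sum.inr j)) → Ψ x = Ψ y) →
      (∀ x : Fin q ⊕ Fin k → ℝ, (∀ l, x (Sum.inl l) = 0) → (∀ j, P j → 0 ≤ x (Sum.inr j)) →
        x ≠ 0 → 0 < Ψ x) →
    (∀ x : Fin q ⊕ Fin k → ℝ, InConeP P S x → (∀ u ∈ M, ∃ z : ℤ, ∑ i, x i * u i = z) → x ≠ 0 →
      ε ≤ Ψ x) →
    ∃ L : List (ℕ × (Fin q ⊕ Fin k → ℤ)), L.length = 2 * (q + k) ∧
      (∀ s ∈ L, (∀ l, 0 ≤ s.2 (Sum.inl l)) ∧ (s.1 = 0 ∨ ∃ l, s.2 (Sum.inl l) = 0) ∧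
        (∀ μ ∈ S, s.2 + (s.1:ℤ) • Sum.elim (fun _ => (-1:ℤ)) (fun j => (μ j : ℤ)) ∈ M) ∧
        (∀ y : Fin k → ℝ, (∀ j, P j → 0 ≤ y j) →
          -(C / ε * Ψ (Sum.elim (fun _ => 0) y)) ≤ ∑ j, (s.2 (Sum.inr j) : ℝ) * y j)) ∧
      ∀ x : Fin q ⊕ Fin k → ℝ, InConeP P S x → x ≠ 0 → ∃ s ∈ L, ∀ γ : ℝ,
        (∀ μ ∈ S, γ ≤ ∑ j, μ j * x (Sum.inr j)) →
          s.1 * (γ - ∑ l, x (Sum.inl l)) + ∑ i, (s.2 i) * x i < 0 := by
  refine ⟨Fc (q + k) k (q + k), Fc_nonneg _ _ _, ?_⟩
  intro ε hε M r hr hM S hSne hSM P hSP Ψ hΨs hΨz hΨpos hlc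
  have hperp : perp (∅ : Set (Fin q ⊕ Fin k → ℤ)) = ⊤ := by
    ext x
    simp only [Submodule.mem_top, iff_true]
    intro u hu
    exact absurd hu (Set.notMem_empty u)
  obtain ⟨L, hL1, hL2, hL3⟩ := staged (AddSubgroup.toIntSubmodule M) r hr hM S hSne hSM P hSP Ψ hΨs hΨz
    hΨpos ε hε hlc (q + k) ∅ (Set.empty_subset _) (fun u hu => absurd hu (Set.notMem_empty u)) (by
      rw [hperp, finrank_top, finrank_fintype_fun_eq_card]; simp only [Fintype.card_sum, Fintype.card_fin, Nat.add_left_cancel_iff])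
  refine ⟨L, hL1, ?_, ?_⟩
  · intro s hs
    obtain ⟨h1, h2, h3, h4⟩ := hL2 s hs
    refine ⟨h1, h2, h3, ?_⟩
    intro y hy
    have hv : InSigP P (∅ : Set (Fin q ⊕ Fin k → ℤ)) (Sum.elim (fun _ => 0) y) := by
      refine ⟨fun l => rfl, hy, ?_⟩
      rw [hperp]; exact Submodule.mem_top
    have h5 := h4 _ hv
    have h7 : dot (Sum.elim (fun _ => 0) y : Fin q ⊕ Fin k → ℝ) s.2
        = ∑ j, (s.2 (Sum.inr j) : ℝ) * y j := by
      simp only [dot, Fintype.sum_sum_type, Sum.elim_inl, Sum.elim_inr, zero_mul,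
        Finset.sum_const_zero, zero_add]
      exact Finset.sum_congr rfl fun j _ => mul_comm _ _
    rw [h7] at h5
    exact h5
  · intro x hx hx0
    obtain ⟨s, hs, hneg⟩ := hL3 x (by rw [hperp]; exact Submodule.mem_top) hx hx0
    refine ⟨s, hs, ?_⟩
    intro γ hγ
    have h1 := hneg γ hγ
    have h2 : dot x s.2 = ∑ i, ((s.2 i : ℤ) : ℝ) * x i :=
      Finset.sum_congr rfl fun i _ => mul_comm _ _
    rw [h2] at h1
    exact h1

end Vale.Agent.P283.H207.F329
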