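import Vale.Agent.P283.H329.Strong

/-!
P283: the number `n` grows linearly in `1 / ε`.
-/

set_option linter.style.haveILetI false

namespace Vale.Agent.P283

open scoped KaehlerDifferential
open MvPolynomial Finset Module

/-- Existence of `2d` bounded semi-invariant sections; the bound is linear in `1 / ε`. -/
theorem sections_exist_lin (q k : ℕ) : ∃ F : ℝ, 0 ≤ F ∧ ∀ ε : ℝ, 0 < ε →
    ∀ (M : AddSubgroup (Fin q ⊕ Fin k → ℤ)) (r : ℕ), 0 < r → (∀ u, (r:ℤ) • u ∈ M) →
    ∀ (S : Finset (Fin k → ℕ)), S.Nonempty →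
      (∀ μ ∈ S, ∀ μ' ∈ S, (Sum.elim (fun _ => 0) (fun j => (μ j : ℤ) - μ' j)) ∈ M) →
    ∀ (c : Fin k → ℝ), (∀ j, 0 < c j) →
    (∀ x : Fin q ⊕ Fin k → ℝ, InCone S x → (∀ u ∈ M, ∃ z : ℤ, ∑ i, x i * u i = z) → x ≠ 0 →
      ε ≤ ∑ j, c j * x (Sum.inr j)) →
    ∃ L : List (ℕ × (Fin q ⊕ Fin k → ℤ)), L.length = 2 * (q + k) ∧
      (∀ s ∈ L, (∀ l, 0 ≤ s.2 (Sum.inl l)) ∧ (s.1 = 0 ∨ ∃ l, s.2 (Sum.inl l) = 0) ∧
        (∀ μ ∈ S, s.2 + (s.1:ℤ) • Sum.elim (fun _ => (-1:ℤ)) (fun j => (μ j : ℤ)) ∈ M) ∧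
        (∀ j, -(F / ε) * c j ≤ s.2 (Sum.inr j))) ∧
      ∀ x : Fin q ⊕ Fin k → ℝ, InCone S x → x ≠ 0 → ∃ s ∈ L, ∀ γ : ℝ,
        (∀ μ ∈ S, γ ≤ ∑ j, μ j * x (Sum.inr j)) →
          s.1 * (γ - ∑ l, x (Sum.inl l)) + ∑ i, (s.2 i) * x i < 0 := by
  refine ⟨Fc (q + k) k (q + k), Fc_nonneg _ _ _, ?_⟩
  intro ε hε M r hr hM S hSne hSM c hc hlc
  have hperp : perp (∅ : Set (Fin q ⊕ Fin k → ℤ)) = ⊤ := by
    ext x
    simp only [Submodule.mem_top, iff_true]
    intro u hu
    exact absurd hu (Set.notMem_empty u)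
  obtain ⟨L, hL1, hL2, hL3⟩ := staged (AddSubgroup.toIntSubmodule M) r hr hM S hSne hSM c hc ε hε
    hlc (q + k) ∅ (Set.empty_subset _) (fun u hu => absurd hu (Set.notMem_empty u)) (by
      rw [hperp, finrank_top, finrank_fintype_fun_eq_card]; simp only [Fintype.card_sum, Fintype.card_fin])
  refine ⟨L, hL1, ?_, ?_⟩
  · intro s hs
    obtain ⟨h1, h2, h3, h4⟩ := hL2 s hs
    refine ⟨h1, h2, h3, ?_⟩
    intro j
    have hv : InSig (∅ : Set (Fin q ⊕ Fin k → ℤ)) (Pi.single (Sum.inr j) 1) := by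
      refine ⟨?_, ?_, ?_⟩
      · intro l; simp
      · intro j'
        by_cases hj : j' = j
        · subst hj; simp
        · simp [hj]
      · rw [hperp]; exact Submodule.mem_top
    have h5 := h4 _ hv
    have h6 : psiL c (Pi.single (Sum.inr j) 1 : Fin q ⊕ Fin k → ℝ) = c j := by
      simp only [psiL_apply, Pi.single_apply, Sum.inr.injEq, mul_ite, mul_one, mul_zero, Finset.sum_ite_eq', Finset.mem_univ, ↓reduceIte]
    have h7 : dot (Pi.single (Sum.inr j) 1 : Fin q ⊕ Fin k → ℝ) s.2 = s.2 (Sum.inr j) := by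
      simp only [dot, Pi.single_apply, ite_mul, one_mul, zero_mul, Finset.sum_ite_eq', Finset.mem_univ, ↓reduceIte]
    rw [h6, h7] at h5
    linarith only [h5]
  · intro x hx hx0
    obtain ⟨s, hs, hneg⟩ := hL3 x (by rw [hperp]; exact Submodule.mem_top) hx hx0
    refine ⟨s, hs, ?_⟩
    intro γ hγ
    have h1 := hneg γ hγ
    have h2 : dot x s.2 = ∑ i, ((s.2 i : ℤ) : ℝ) * x i :=
      Finset.sum_congr rfl fun i _ => mul_comm _ _
    rw [h2] at h1
    exact h1

end Vale.Agent.P283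

namespace Vale.Agent.P283

open scoped KaehlerDifferential
open MvPolynomial Finset

/-- **The engine**, strong form, with a linear bound. -/
theorem engine_lin (q k : ℕ) (hd : 0 < q + k) (J : ℕ) : ∃ c : ℕ, 0 < c ∧
    ∀ ε : ℝ, 0 < ε → ∀ N : ℕ, (c : ℝ) * (1 + 1 / ε) ≤ N →
    ∀ (K L : Type) [Field K] [Field L] [Algebra ℂ K] [Algebra ℂ L] [Algebra K L]
      [IsScalarTower ℂ K L] (t : Fin q ⊕ Fin k → L) (g : MvPolynomial (Fin k) ℂ) (x0 : L)
      (G G0 : Subgroup (L ≃ₐ[ℂ] L)) (A : Subalgebra ℂ K), EngineData q k J t g x0 G G0 A →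
    ∀ (ω : ⋀[K]^(q + k) (Ω[K⁄ℂ])) (h : L), ω ≠ 0 → h ≠ 0 → IsPullback ω (h • logForm t) →
      (∀ τ ∈ G0, τ h = h) →
    ∀ (B : QDivisor A) (c : Fin k → ℚ) (r : ℕ) (c' : Fin k → ℤ) (ψ : K) (χ : ℂ), 0 < r →
      (∀ j, (c' j : ℚ) = r * c j) → χ ≠ 0 →
      algebraMap K L ψ = χ • (h ^ r * ∏ j, t (Sum.inr j) ^ (-c' j)) →
      (∀ (u : AddValuation K (WithTop ℤ)) (p : Ideal A) (m : ℤ) (w : AddValuation L (WithTop ℤ))
        (e : ℕ), IsPrimeDivisorOn A (q + k) u p → FormOrder (q + k) u ω m → 0 < e →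
        (∃ f, w f = 1) → (∀ f : K, w (algebraMap K L f) = e • u f) →
        (e : ℚ) * (m + B.coeff p) = ov w h - ∑ j, c j * ov w (t (Sum.inr j))) →
      IsEpsLC (q + k) ω B ε → StrongCompl (q + k) ω B (N * J.factorial) := by
  classical
  obtain ⟨F₀, hF₀, hCF⟩ := sections_exist_lin q k
  obtain ⟨N0, hN0'⟩ := exists_nat_ge (2 * ((q : ℝ) + k) * F₀)
  refine ⟨2 * (q + k) + 1 + N0, by omega, ?_⟩
  intro ε hε N hNc
  have hC := hCF ε hε
  set C : ℝ := F₀ / ε with hCdef
  have hC0 : 0 ≤ C := div_nonneg hF₀ hε.le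
  have hε1 : 0 < 1 / ε := by positivity
  have hNbig : 2 * (q + k) < N := by
    have h1 : ((2 * (q + k) + 1 + N0 : ℕ) : ℝ) ≤ N := by
      refine le_trans ?_ hNc
      have : (0 : ℝ) ≤ ((2 * (q + k) + 1 + N0 : ℕ) : ℝ) := Nat.cast_nonneg _
      nlinarith
    have h2 : 2 * (q + k) + 1 + N0 ≤ N := by exact_mod_cast h1
    omega
  have hN0 : 2 * ((q : ℝ) + k) * |C| ≤ N := by
    refine le_trans ?_ hNc
    rw [abs_of_nonneg hC0, hCdef]
    have h1 : 2 * ((q : ℝ) + k) * (F₀ / ε) = (2 * ((q : ℝ) + k) * F₀) * (1 / ε) := by ring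
    rw [h1]
    have h2 : (2 * ((q : ℝ) + k) * F₀) * (1 / ε) ≤ N0 * (1 / ε) :=
      mul_le_mul_of_nonneg_right hN0' hε1.le
    refine h2.trans ?_
    push_cast
    have h3 : (0 : ℝ) ≤ (2 * ((q : ℝ) + k) + 1) * (1 + 1 / ε) := by positivity
    have h4 : (0 : ℝ) ≤ N0 := Nat.cast_nonneg _
    nlinarith
  intro K L _ _ _ _ _ _ t g x0 G G0 A H ω h hω hh hpull hhG B c r c' ψ χ hr hc' hχ hψ hcrep hlc
  have P : EnginePair q k t A ω h B c := ⟨hω, hh, hpull, ⟨r, c', ψ, χ, hr, hc', hχ, hψ⟩, hcrep⟩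
  haveI := H.isAlgebraic
  haveI := H.essL
  haveI := H.essK
  haveI := H.finDim
  haveI : Finite G := H.fin
  haveI : Finite G0 := Set.Finite.subset (Set.toFinite (G : Set (L ≃ₐ[ℂ] L))) H.le
  haveI : CharZero K := charZero_of_injective_algebraMap (algebraMap ℂ K).injective
  have ht0 := H.coords.ne_zero
  have hr0 : 0 < Nat.card G0 := Nat.card_pos
  have hSne : (supp g).Nonempty := by
    obtain ⟨n, hn⟩ := support_nonempty.2 H.g_ne
    exact ⟨_, Finset.mem_image_of_mem _ hn⟩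
  have hpsi := psi_bound H P hd hε hlc
  -- positivity of the coefficients
  have hcpos : ∀ j, 0 < c j := by
    intro j
    let x : Fin q ⊕ Fin k → ℝ := Pi.single (Sum.inr j) (Nat.card G0 : ℝ)
    have h1 := hpsi x ?_ ?_ ?_
    · have h2 : ∑ j', (c j' : ℝ) * x (Sum.inr j') = c j * Nat.card G0 := by
        rw [Finset.sum_eq_single j]
        · simp only [Pi.single_eq_same, x]
        · intro j' _ hj'
          have : (Sum.inr j' : Fin q ⊕ Fin k) ≠ Sum.inr j := fun h => hj' (Sum.inr_injective h)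
          simp only [Pi.single_eq_of_ne this, mul_zero, x]
        · simp only [mem_univ, not_true_eq_false, mul_eq_zero, Rat.cast_eq_zero, IsEmpty.forall_iff]
      rw [h2] at h1
      have h3 : (0 : ℝ) < Nat.card G0 := by exact_mod_cast hr0
      have h4 : (0 : ℝ) < c j := by
        by_contra hcon
        push Not at hcon
        have : (c j : ℝ) * Nat.card G0 ≤ 0 := mul_nonpos_of_nonpos_of_nonneg hcon h3.le
        linarith only [hε, h1, this]
      exact_mod_cast h4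
    · refine ⟨?_, ?_⟩
      · intro i
        by_cases hi : i = Sum.inr j
        · subst hi; simp only [Pi.single_eq_same, Nat.cast_nonneg, x]
        · simp only [Pi.single_eq_of_ne hi, Std.le_refl, x]
      · intro μ _
        have h1 : ∑ l : Fin q, x (Sum.inl l) = 0 := by
          apply Finset.sum_eq_zero
          intro l _
          simp only [ne_eq, reduceCtorEq, not_false_eq_true, Pi.single_eq_of_ne, x]
        rw [h1]
        unfold mdot
        apply Finset.sum_nonneg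
        intro j' _
        apply mul_nonneg (by (clear * -; positivity))
        by_cases hi : (Sum.inr j' : Fin q ⊕ Fin k) = Sum.inr j
        · rw [hi]; simp only [Pi.single_eq_same, Nat.cast_nonneg, x]
        · simp only [Pi.single_eq_of_ne hi, Std.le_refl, x]
    · intro u _
      refine ⟨Nat.card G0 * u (Sum.inr j), ?_⟩
      rw [Finset.sum_eq_single (Sum.inr j)]
      · simp only [Pi.single_eq_same, Int.cast_mul, Int.cast_natCast, x]
      · intro i _ hi
        simp only [Pi.single_eq_of_ne hi, zero_mul, x]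
      · simp only [mem_univ, not_true_eq_false, mul_eq_zero, Int.cast_eq_zero, IsEmpty.forall_iff]
    · intro h0
      have := congrFun h0 (Sum.inr j)
      simp only [x, Pi.single_eq_same, Pi.zero_apply] at this
      exact hr0.ne' (by exact_mod_cast this)
  obtain ⟨Ls, hLlen, hL1, hL2⟩ := hC (invLattice t ht0 G0) (Nat.card G0) hr0
    (fun u => H.card_smul_mem u) (supp g) hSne H.supp_mem (fun j => (c j : ℝ))
    (fun j => by exact_mod_cast hcpos j) hpsi
  have hLs : ∀ s ∈ Ls, s.1 = 0 ∨ ∃ l, s.2 (Sum.inl l) = 0 := fun s hs => (hL1 s hs).2.1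
  have hne : ∀ s ∈ Ls, 1 + phi t x0 s ≠ 0 := fun s hs => one_add_phi_ne_zero H (hLs s hs)
  let Q : L := (Ls.map fun s => 1 + phi t x0 s).prod
  have hQ0 : Q ≠ 0 := list_prod_ne_zero Ls _ hne
  let F : L := h ^ N * Q
  have hF0 : F ≠ 0 := mul_ne_zero (pow_ne_zero _ hh) hQ0
  have hFinv : ∀ τ ∈ G0, τ F = F := by
    intro τ hτ
    simp only [F, map_mul, map_pow, hhG τ hτ]
    congr 1
    apply map_list_prod'
    intro s hs
    rw [map_add, map_one, H.phi_inv s (hL1 s hs).2.2.1 τ hτ]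
  have hFov : ∀ w : AddValuation L (WithTop ℤ),
      ov w F = N * ov w h + (Ls.map fun s => ov w (1 + phi t x0 s)).sum := by
    intro w
    simp only [F]
    rw [ov_mul w (pow_ne_zero _ hh) hQ0, ov_pow w hh]
    congr 1
    exact ov_list_prod w Ls _ hne
  obtain ⟨φ, hφ0, hφ⟩ := H.exists_norm F hFinv hF0
  -- common facts on the twisted valuations
  have htw : ∀ (v : AddValuation K (WithTop ℤ)) (w : AddValuation L (WithTop ℤ)) (e : ℕ),
      IsOver A v → (∀ f : K, w (algebraMap K L f) = e • v f) →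
      ∀ τ ∈ G, (∀ i, 0 ≤ (w.comap (τ : L →+* L)) (t i)) ∧ 0 ≤ (w.comap (τ : L →+* L)) x0 := by
    intro v w e hover hvw τ hτ
    have hnn : ∀ a ∈ A, 0 ≤ (w.comap (τ : L →+* L)) (algebraMap K L a) := by
      intro a ha
      rw [H.twist hvw hτ]
      exact nsmul_nonneg (hover ⟨a, ha⟩) e
    exact ⟨fun i => nonneg_of_integral hnn (H.int i), nonneg_of_integral hnn H.int0⟩
  -- the global equation
  have hT0 : ∀ j : Fin k, t (Sum.inr j) ^ (-c' j) ≠ 0 := fun j => zpow_ne_zero _ (H.coords.ne_zero _)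
  have hprod0 : h ^ r * ∏ j, t (Sum.inr j) ^ (-c' j) ≠ 0 :=
    mul_ne_zero (pow_ne_zero _ P.h_ne) (Finset.prod_ne_zero_iff.2 fun j _ => hT0 j)
  have hψ0 : ψ ≠ 0 := by
    rintro rfl
    rw [map_zero, Algebra.smul_def] at hψ
    exact (mul_ne_zero ((map_ne_zero _).2 hχ) hprod0) hψ.symm
  have hrQ : (r : ℚ) ≠ 0 := by exact_mod_cast hr.ne'
  have hval : ∀ (w1 : AddValuation L (WithTop ℤ)) (v1 : AddValuation K (WithTop ℤ)) (e1 : ℕ),
      IsDivisorial (q + k) v1 →
      (∀ f : K, w1 (algebraMap K L f) = e1 • v1 f) →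
      (e1 : ℚ) * ov v1 ψ = r * (ov w1 h - ∑ j, c j * ov w1 (t (Sum.inr j))) := by
    intro w1 v1 e1 hv1 hvw1
    have h1 : ov w1 (algebraMap K L ψ) = e1 * ov v1 ψ := by
      apply ov_eq_of
      rw [hvw1, ← coe_ov v1 hψ0, ← WithTop.coe_nsmul]
      simp
    have h2 : ov w1 (algebraMap ℂ L χ) = 0 := by
      apply ov_eq_of
      rw [IsScalarTower.algebraMap_apply ℂ K L, hvw1, hv1.const χ hχ, nsmul_zero]; rfl
    have h3 : ov w1 (algebraMap K L ψ) = r * ov w1 h + ∑ j, (-c' j) * ov w1 (t (Sum.inr j)) := by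
      rw [hψ, Algebra.smul_def, ov_mul w1 ((map_ne_zero _).2 hχ) hprod0, h2, zero_add,
        ov_mul w1 (pow_ne_zero _ P.h_ne) (Finset.prod_ne_zero_iff.2 fun j _ => hT0 j),
        ov_pow w1 P.h_ne, ov_prod _ _ fun j _ => hT0 j]
      congr 1
      exact Finset.sum_congr rfl fun j _ => ov_zpow w1 (H.coords.ne_zero _) _
    have h4 : ((ov w1 (algebraMap K L ψ) : ℤ) : ℚ) = e1 * ov v1 ψ := by rw [h1]; push_cast; rfl
    rw [← h4, h3]
    push_cast
    rw [mul_sub, Finset.mul_sum, sub_eq_add_neg, ← Finset.sum_neg_distrib]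
    congr 1
    apply Finset.sum_congr rfl
    intro j _
    rw [hc']; ring
  have hloc : ∀ p0 : Ideal A, IsLocalEquation (q + k) ω B p0 r ψ := by
    intro p0
    refine ⟨hr, hψ0, ?_⟩
    intro u p m k' hu _ hm hk'
    obtain ⟨wu, eu, heu, hwu1, hwu2⟩ := exists_extension (L := L) u hu.1.normalized
    have h1 := P.crep u p m wu eu hu hm heu hwu1 hwu2
    have h2 := hval wu u eu hu.1 hwu2
    rw [ov_eq_of u hk', ← h1] at h2
    have h3 : (eu : ℚ) ≠ 0 := by exact_mod_cast heu.ne'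
    have h4 : (eu : ℚ) * k' = eu * (r * (m + B.coeff p)) := by rw [h2]; ring
    exact mul_left_cancel₀ h3 h4
  refine ⟨r, ψ, φ, hloc, hφ0, ?_, ?_⟩
  · -- the complement is klt
    intro v m k' hv hover hm hk'
    obtain ⟨w, e, he, hw1, hvw⟩ := exists_extension (L := L) v hv.normalized
    have heQ : (0 : ℚ) < e := by exact_mod_cast he
    have hb : ∀ τ ∈ G, ov w (τ F) < N * (e * (1 + m)) := by
      intro τ hτ
      set w1 := w.comap (τ : L →+* L) with hw1def
      have hw1n := comap_normalized hw1 τ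
      have hvw1 : ∀ f : K, w1 (algebraMap K L f) = e • v f := fun f => H.twist hvw hτ f
      have hdiv := isDivisorial_of_ext hv hw1n hvw1
      obtain ⟨h1, h0⟩ := htw v w e hover hvw τ hτ
      have hf := formOrder_transfer hd H.trdegK H.trdegL hv hw1n he hvw1 hpull hm
      have hf2 := formOrder_smul' hd H.trdegL hdiv hf (inv_ne_zero hh)
      rw [smul_smul, inv_mul_cancel₀ hh, one_smul, ov_inv] at hf2
      have hcore := (core_positivity hd H.coords H.g_ne H.x0_eq hdiv h1 h0 hf2 Ls hLlen hLs hL2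
        (N : ℤ) (by exact_mod_cast hNbig)).2
      have h2 : ov w (τ F) = ov w1 F := rfl
      rw [h2, hFov]
      have h3 : (N : ℤ) * (e * (1 + m) - 1 + -ov w1 h + 1) = N * (e * (1 + m)) - N * ov w1 h := by
        ring
      rw [h3] at hcore
      linarith only [hcore]
    have h1 := (hφ w v e hvw).2 _ hb
    rw [ov_eq_of v hk'] at h1
    have h2 : (e : ℚ) * k' < J.factorial * (N * (e * (1 + m))) := by exact_mod_cast h1
    have hnpos : (0 : ℚ) < ((N * J.factorial : ℕ) : ℚ) := by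
      have : 0 < N * J.factorial := Nat.mul_pos (by omega) J.factorial_pos
      exact_mod_cast this
    have h3 : (k' : ℚ) / ((N * J.factorial : ℕ) : ℚ) < 1 + m := by
      rw [div_lt_iff₀ hnpos]
      have h4 : (e : ℚ) * k' < e * ((1 + m) * ((N * J.factorial : ℕ) : ℚ)) := by
        refine lt_of_lt_of_le h2 (le_of_eq ?_)
        push_cast; ring
      exact lt_of_mul_lt_mul_left h4 heQ.le
    linarith only [h3]
  · -- effectivity on every model
    intro v k' l hv hover hk' hl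
    obtain ⟨w, e, he, hw1, hvw⟩ := exists_extension (L := L) v hv.normalized
    have heQ : (0 : ℚ) < e := by exact_mod_cast he
    have hb : ∀ τ ∈ G, ⌈(N : ℚ) * (e * ((l : ℚ) / r))⌉ ≤ ov w (τ F) := by
      intro τ hτ
      rw [Int.ceil_le]
      set w1 := w.comap (τ : L →+* L) with hw1def
      have hcr := hval w1 v e hv (fun f => H.twist hvw hτ f)
      rw [ov_eq_of v hl] at hcr
      obtain ⟨h1, h0⟩ := htw v w e hover hvw τ hτ
      have h1' : ∀ i, 0 ≤ ov w1 (t i) := fun i => (nonneg_iff w1 (ht0 i)).1 (h1 i)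
      have h0' : 0 ≤ ov w1 x0 := (nonneg_iff w1 H.x0_ne).1 h0
      have h2 : ov w (τ F) = ov w1 F := rfl
      rw [h2, hFov]
      have h3 := list_sum_ge Ls (fun s => ov w1 (1 + phi t x0 s))
        (-(|C| * ∑ j, (c j : ℝ) * ov w1 (t (Sum.inr j)))) fun s hs =>
          phi_lower H h1' h0' hcpos (hL1 s hs).1 (hL1 s hs).2.2.2 (hne s hs)
      rw [hLlen] at h3
      set σ : ℝ := ∑ j, (c j : ℝ) * ov w1 (t (Sum.inr j)) with hσ
      have hσ0 : 0 ≤ σ := Finset.sum_nonneg fun j _ => mul_nonneg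
        (by exact_mod_cast (hcpos j).le) (by exact_mod_cast h1' _)
      have h4 : ((e * ((l : ℚ) / r) : ℚ) : ℝ) = ov w1 h - σ := by
        have h40 : (e * ((l : ℚ) / r) : ℚ) = ov w1 h - ∑ j, c j * ov w1 (t (Sum.inr j)) := by
          rw [← mul_div_assoc, hcr]
          (clear * - hrQ; field_simp)
        rw [h40]; push_cast; rfl
      have h5 : (2 * ((q : ℝ) + k) * |C|) * σ ≤ N * σ := by
        exact mul_le_mul_of_nonneg_right hN0 hσ0
      have h6 : ((N : ℚ) * (e * ((l : ℚ) / r)) : ℚ)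
          ≤ ((N * ov w1 h + (Ls.map fun s => ov w1 (1 + phi t x0 s)).sum : ℤ) : ℚ) := by
        have h7 : (((N : ℚ) * (e * ((l : ℚ) / r)) : ℚ) : ℝ)
            ≤ (((N * ov w1 h + (Ls.map fun s => ov w1 (1 + phi t x0 s)).sum : ℤ) : ℚ) : ℝ) := by
          rw [Rat.cast_mul, h4, Rat.cast_intCast, Int.cast_add, Int.cast_mul]
          push_cast at h3 ⊢
          nlinarith only [h5, h3]
        exact_mod_cast h7
      exact_mod_cast h6
    have h1 := (hφ w v e hvw).1 _ hb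
    rw [ov_eq_of v hk'] at h1
    have h2 : (J.factorial : ℚ) * ((N : ℚ) * (e * ((l : ℚ) / r))) ≤ e * k' := by
      have h3 : (J.factorial : ℚ) * (⌈(N : ℚ) * (e * ((l : ℚ) / r))⌉ : ℚ) ≤ e * k' := by
        exact_mod_cast h1
      refine le_trans ?_ h3
      exact mul_le_mul_of_nonneg_left (Int.le_ceil _) (by positivity)
    have hnpos : (0 : ℚ) < ((N * J.factorial : ℕ) : ℚ) := by
      have : 0 < N * J.factorial := Nat.mul_pos (by omega) J.factorial_pos
      exact_mod_cast this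
    rw [le_div_iff₀ hnpos]
    have h4 : (e : ℚ) * (((l : ℚ) / r) * ((N * J.factorial : ℕ) : ℚ)) ≤ e * k' := by
      refine le_trans (le_of_eq ?_) h2
      push_cast; ring
    exact le_of_mul_le_mul_left h4 heQ

end Vale.Agent.P283
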