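import Vale.Agent.P283.H329.Engine

/-!
P283: the strong form of the main theorem (one global complement, all crepant models).
-/

set_option linter.style.haveILetI false

namespace Vale.Agent.P283.Q

variable {K : Type} [Field K] [Algebra ℂ K] {d : ℕ} {A : Subalgebra ℂ K}

/-- `(X', B')` is a crepant model of `(X, B)`, `X = Spec A`. Here `X'` is a variety with function
field `K` and a birational morphism `f : X' → X`; it is given by the coordinate rings `C ∈ 𝒞`,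
`A ⊆ C ⊆ K`, of its affine charts `Spec C`. The boundary `B'` has the coefficient `b u ≥ 0` along
the prime divisor `u` of `X'`, and `K_{X'} + B' = f^* (K_X + B)`: if `r (K_X + B)` is the divisor
of `ψ` near the centre `p` of `u` on `X`, then `u(ψ) = r (ord_u ω + b u)`. -/
structure IsCrepantModel (D : Fin d → Derivation ℂ K K) (B : QDivisor A)
    (𝒞 : Set (Subalgebra ℂ K)) (b : AddValuation K (WithTop ℤ) → ℚ) : Prop where
  le : ∀ C ∈ 𝒞, A ≤ C
  effective : ∀ C ∈ 𝒞, ∀ (u : AddValuation K (WithTop ℤ)) (p' : Ideal C),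
    IsPrimeDivisorOn C d u p' → 0 ≤ b u
  crepant : ∀ C ∈ 𝒞, ∀ (u : AddValuation K (WithTop ℤ)) (p' : Ideal C),
    IsPrimeDivisorOn C d u p' →
    ∀ (p : Ideal A) (r : ℕ) (ψ : K) (m l : ℤ), IsCentre A u p → IsLocalEquation D B p r ψ →
      FormOrder u D m → u ψ = (l : WithTop ℤ) → (l : ℚ) = r * (m + b u)

/-- The `ℚ`-divisor `Λ` on `X = Spec A` with `n (K_X + Λ) = div φ` on all of `X` satisfies `Λ ≥ 0`
and `Λ ≥ B`, and `(X, Λ)` is klt. -/
def IsKltComplement (D : Fin d → Derivation ℂ K K) (B : QDivisor A) (n : ℕ) (φ : K) : Prop :=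
  φ ≠ 0 ∧
    (∀ (u : AddValuation K (WithTop ℤ)) (p : Ideal A) (m k : ℤ), IsPrimeDivisorOn A d u p →
      FormOrder u D m → u φ = (k : WithTop ℤ) →
        0 ≤ (k : ℚ) / n - m ∧ B.coeff p ≤ (k : ℚ) / n - m) ∧
    ∀ (v : AddValuation K (WithTop ℤ)) (m k : ℤ), IsDivisorial d v → IsOver A v →
      FormOrder v D m → v φ = (k : WithTop ℤ) → 0 < 1 + (m : ℚ) - (k : ℚ) / n

/-- The `ℚ`-divisor `Λ` on `X'` with `n (K_{X'} + Λ) = div φ` on all of `X'` satisfies `Λ ≥ 0` and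
`Λ ≥ B' = ∑ b u · u`, and `(X', Λ)` is klt. The variety `X'` is given by the coordinate rings
`C ∈ 𝒞` of its affine charts. -/
def IsKltComplementOn (D : Fin d → Derivation ℂ K K) (𝒞 : Set (Subalgebra ℂ K))
    (b : AddValuation K (WithTop ℤ) → ℚ) (n : ℕ) (φ : K) : Prop :=
  φ ≠ 0 ∧ ∀ C ∈ 𝒞,
    (∀ (u : AddValuation K (WithTop ℤ)) (p' : Ideal C) (m k : ℤ), IsPrimeDivisorOn C d u p' →
      FormOrder u D m → u φ = (k : WithTop ℤ) → 0 ≤ (k : ℚ) / n - m ∧ b u ≤ (k : ℚ) / n - m) ∧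
    ∀ (v : AddValuation K (WithTop ℤ)) (m k : ℤ), IsDivisorial d v → IsOver C v →
      FormOrder v D m → v φ = (k : WithTop ℤ) → 0 < 1 + (m : ℚ) - (k : ℚ) / n

end Vale.Agent.P283.Q

namespace Vale.Agent.P283

open scoped KaehlerDifferential
open MvPolynomial Finset

/-- A multiple of a strong complement is a strong complement. -/
theorem StrongCompl.mul {K : Type} [Field K] [Algebra ℂ K] {A : Subalgebra ℂ K} {d : ℕ}
    {ω : ⋀[K]^d (Ω[K⁄ℂ])} {B : QDivisor A} {n : ℕ}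
    (h : StrongCompl d ω B n) {m : ℕ} (hm : 0 < m) : StrongCompl d ω B (n * m) := by
  obtain ⟨r, ψ, φ, h0, hφ, h1, h2⟩ := h
  have hmQ : (m : ℚ) ≠ 0 := by exact_mod_cast hm.ne'
  have key : ∀ (u : AddValuation K (WithTop ℤ)) (k : ℤ), u (φ ^ m) = (k : WithTop ℤ) →
      (k : ℚ) / ((n * m : ℕ) : ℚ) = (ov u φ : ℚ) / n := by
    intro u k hk
    have h3 : k = m * ov u φ := by
      have := ov_eq_of u hk
      rw [ov_pow u hφ] at this
      exact this.symm
    rw [h3]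
    push_cast
    rw [mul_comm (m : ℚ), mul_div_mul_right _ _ hmQ]
  refine ⟨r, ψ, φ ^ m, h0, pow_ne_zero _ hφ, ?_, ?_⟩
  · intro v m' k hv hv' hω hk
    rw [key v k hk]
    exact h1 v m' (ov v φ) hv hv' hω (coe_ov v hφ).symm
  · intro v k l hv hv' hk hl
    rw [key v k hk]
    exact h2 v (ov v φ) l hv hv' (coe_ov v hφ).symm hl

theorem Abs.result_qk_strong (q k : ℕ) (hd : 0 < q + k) (ε : ℝ) (hε : 0 < ε) : ∃ n : ℕ, 0 < n ∧
    ∀ (K L : Type) [Field K] [Field L] [Algebra ℂ K] [Algebra ℂ L]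
      [Algebra K L] [IsScalarTower ℂ K L] (x : Fin (q + 1) → L) (z : Fin k → L)
      (g : MvPolynomial (Fin k) ℂ) (b : Fin k → ℚ) (G : Subgroup (L ≃ₐ[ℂ] L))
      (A : Subalgebra ℂ K), Q.IsQuotient x z g b G A →
    ∀ ω : ⋀[K]^(q + k) (Ω[K⁄ℂ]), ω ≠ 0 → ∀ B : QDivisor A,
    (∀ h : L, IsPullback ω (h • ((∏ l, Fin.tail x l)⁻¹ • wedgeD (q + k)
        (Fin.append (Fin.tail x) z))) →
      ∀ (u : AddValuation K (WithTop ℤ)) (p : Ideal A) (m : ℤ) (w : AddValuation L (WithTop ℤ))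
        (e : ℕ), IsPrimeDivisorOn A (q + k) u p → FormOrder (q + k) u ω m → 0 < e →
        (∃ f, w f = 1) → (∀ f : K, w (algebraMap K L f) = e • u f) →
        (e : ℚ) * (m + B.coeff p) = ov w h + ∑ j, b j * ov w (z j)) →
    IsEpsLC (q + k) ω B ε → StrongCompl (q + k) ω B n := by
  classical
  obtain ⟨J, hJ⟩ := Abs.exists_diag q k
  obtain ⟨n, hn, heng⟩ := engine_strong q k hd ε hε J
  refine ⟨n, hn, ?_⟩
  intro K L _ _ _ _ _ _ x z g b G A H ω hω B hcrep hlc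
  obtain ⟨G0, v, hle, hidx, hv, hvb, hdiag0, hdiag⟩ := hJ K L x z g b G A H
  obtain ⟨g', hg', haev⟩ := Abs.exists_newg v hv H
  obtain ⟨c₀, hc₀, homega⟩ := Abs.omY_eq v hv H
  obtain ⟨F₀, hF₀, hpull, hsemi⟩ := Abs.exists_pullback H ω hω
  have hcoords := Abs.isCoords_nT v hv H
  -- the data
  have hdata : EngineData q k J (Abs.nT x z v) g' (x 0) G G0 A :=
    { coords := hcoords
      g_ne := hg'
      x0_eq := by
        rw [haev]
        exact Abs.x0_mul H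
      fin := H.finite
      fix := fun f => (H.field f).symm
      le := hle
      index := hidx
      diag := by
        rintro τ hτ (l | j)
        · exact hdiag0 τ hτ l.succ
        · exact hdiag τ hτ j
      diag0 := fun τ hτ => hdiag0 τ hτ 0
      frac := by
        intro f
        obtain ⟨x, hx, y, hy, hy0, h⟩ := Abs.ring_frac H f
        exact ⟨x, hx, y, hy, hy0, h⟩
      sub := fun a ha => Abs.ring_sub H v hv a ha
      int0 := Abs.rY_integral H (Abs.x_mem x z 0)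
      int := by
        rintro (l | j)
        · exact Abs.rY_integral H (Abs.x_mem x z l.succ)
        · exact Abs.rY_integral H (Abs.lin_mem x z _) }
  -- denominators
  let D : ℕ := ∏ j, (b j).den
  have hD : 0 < D := Finset.prod_pos fun j _ => (b j).den_pos
  have hDb : ∀ j, ∃ e : ℤ, (e : ℚ) = D * b j := by
    intro j
    obtain ⟨m, hm⟩ : (b j).den ∣ D := Finset.dvd_prod_of_mem _ (Finset.mem_univ j)
    refine ⟨m * (b j).num, ?_⟩
    rw [hm]
    push_cast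
    have := Rat.den_mul_eq_num (b j)
    rw [mul_comm ((b j).den : ℚ) m, mul_assoc, this]
  choose e₀ he₀ using hDb
  have he1 : ∀ i j, b i = b j → e₀ i = e₀ j := by
    intro i j hij
    have h1 := he₀ i
    rw [hij, ← he₀ j] at h1
    exact_mod_cast h1
  have he2 : ∀ j, b j = 0 → e₀ j = 0 := by
    intro j hj
    have h1 := he₀ j
    rw [hj, mul_zero] at h1
    exact_mod_cast h1
  -- the semi-invariant function
  let F : L := F₀ ^ D * ∏ j, z j ^ e₀ j
  have hF : ∀ τ ∈ G, ∃ κ : ℂ, τ F = algebraMap ℂ L κ * F := by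
    intro τ hτ
    obtain ⟨κ₁, -, h1⟩ := hsemi τ hτ
    obtain ⟨κ₂, h2⟩ := Abs.prodZ_semi H e₀ he1 he2 τ hτ
    refine ⟨κ₁ ^ D * κ₂, ?_⟩
    simp only [F]
    rw [map_mul, map_pow, h1, h2, map_mul, map_pow]
    ring
  have hfin : Finite G := H.finite
  let N : ℕ := Nat.card G
  have hN : 0 < N := Nat.card_pos
  obtain ⟨ψ, hψ⟩ := Abs.pow_invariant H F hF
  let zz : Fin k → L := fun j => Abs.lin z (v j)
  have hzz : ∀ j, zz j ≠ 0 := fun j => hcoords.ne_zero (Sum.inr j)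
  have hzb : ∀ j, b j ≠ 0 → zz j = z j := by
    intro j hj
    show Abs.lin z (v j) = _
    rw [hvb j hj, Abs.lin_single]
  have hc₁ : algebraMap ℂ L c₀ ≠ 0 := (map_ne_zero _).mpr hc₀
  let h : L := F₀ * (algebraMap ℂ L c₀ * ∏ j, zz j)
  have hprodzz : ∏ j, zz j ≠ 0 := Finset.prod_ne_zero_iff.mpr fun j _ => hzz j
  have hh0 : h ≠ 0 := mul_ne_zero hF₀ (mul_ne_zero hc₁ hprodzz)
  have hpull' : IsPullback ω (h • logForm (Abs.nT x z v)) := by
    have : h • logForm (Abs.nT x z v) = F₀ • Abs.omY x z := by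
      rw [homega, smul_smul]
    rw [this]
    exact hpull
  have hinv : ∀ τ ∈ G0, τ h = h := by
    intro τ hτ
    refine h_invariant (Abs.nT x z v) hcoords τ
      (fun f => (H.field _).mp ⟨f, rfl⟩ τ (hle hτ)) ?_ ω h hpull'
    rintro (l | j)
    · exact hdiag0 τ hτ l.succ
    · exact hdiag τ hτ j
  have hpow : ∀ j, zz j ^ (((D * N : ℕ) : ℤ) - (((D * N : ℕ) : ℤ) - N * e₀ j))
      = z j ^ (N * e₀ j) := by
    intro j
    rw [sub_sub_cancel]
    by_cases hj : b j = 0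
    · rw [he2 j hj]; simp
    · rw [hzb j hj]
  refine heng K L (Abs.nT x z v) g' (x 0) G G0 A hdata
    ω h hω hh0 hpull' hinv B (fun j => 1 - b j) (D * N) (fun j => ((D * N : ℕ) : ℤ) - N * e₀ j) ψ
    ((c₀ ^ (D * N))⁻¹) (Nat.mul_pos hD hN) ?_ (inv_ne_zero (pow_ne_zero _ hc₀)) ?_ ?_ hlc
  · intro j
    push_cast
    rw [he₀ j]
    ring
  · -- the equation of `r (K_X + B)`
    rw [hψ]
    show F ^ N = ((c₀ ^ (D * N))⁻¹) • (h ^ (D * N) * ∏ j, Abs.nT x z v (Sum.inr j) ^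
      (-(((D * N : ℕ) : ℤ) - N * e₀ j)))
    have h1 : ∏ j, Abs.nT x z v (Sum.inr j) ^ (-(((D * N : ℕ) : ℤ) - N * e₀ j))
        = (∏ j, z j ^ (N * e₀ j)) / (∏ j, zz j) ^ (D * N) := by
      rw [← Finset.prod_pow, ← Finset.prod_div_distrib]
      refine Finset.prod_congr rfl fun j _ => ?_
      rw [← hpow j]
      show zz j ^ (-(((D * N : ℕ) : ℤ) - N * e₀ j)) = _
      rw [zpow_sub₀ (hzz j) ((D * N : ℕ) : ℤ), zpow_natCast, zpow_neg]
      have h2 : zz j ^ (D * N) ≠ 0 := pow_ne_zero _ (hzz j)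
      field_simp
    rw [h1, Algebra.smul_def, map_inv₀, map_pow]
    have h3 : ∏ j, z j ^ (N * e₀ j) = (∏ j, z j ^ e₀ j) ^ N := by
      rw [← Finset.prod_pow]
      refine Finset.prod_congr rfl fun j _ => ?_
      rw [mul_comm (N : ℤ), zpow_mul, zpow_natCast]
    rw [h3]
    simp only [F, h]
    have h4 : (∏ j, zz j) ^ (D * N) ≠ 0 := pow_ne_zero _ hprodzz
    have h5 : algebraMap ℂ L c₀ ^ (D * N) ≠ 0 := pow_ne_zero _ hc₁
    rw [mul_pow, mul_pow, mul_pow, ← pow_mul]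
    field_simp
  · -- crepancy
    intro u p m w e hu hum he hw huw
    have h1 := hcrep F₀ hpull u p m w e hu hum he hw huw
    rw [h1]
    have hwc : ov w (algebraMap ℂ L c₀) = 0 := by
      have h2 := huw (algebraMap ℂ K c₀)
      rw [hu.1.const c₀ hc₀, smul_zero] at h2
      have h3 : algebraMap K L (algebraMap ℂ K c₀) = algebraMap ℂ L c₀ :=
        (IsScalarTower.algebraMap_apply ℂ K L c₀).symm
      rw [h3] at h2
      exact ov_eq_of w h2
    have h2 : ov w h = ov w F₀ + ∑ j, ov w (zz j) := by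
      show ov w (F₀ * (algebraMap ℂ L c₀ * ∏ j, zz j)) = _
      rw [ov_mul w hF₀ (mul_ne_zero hc₁ hprodzz), ov_mul w hc₁ hprodzz, hwc, zero_add,
        ov_prod Finset.univ zz (fun j _ => hzz j)]
    rw [h2]
    push_cast
    have h3 : ∑ j, (1 - b j) * (ov w (Abs.nT x z v (Sum.inr j)) : ℚ)
        = ∑ j, (ov w (zz j) : ℚ) - ∑ j, b j * (ov w (z j) : ℚ) := by
      rw [← Finset.sum_sub_distrib]
      refine Finset.sum_congr rfl fun j _ => ?_
      show (1 - b j) * (ov w (zz j) : ℚ) = _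
      by_cases hj : b j = 0
      · rw [hj]; ring
      · rw [hzb j hj]; ring
    rw [h3]
    ring

theorem result_abs_strong (d : ℕ) (hd : 0 < d) (ε : ℝ) (hε : 0 < ε) : ∃ n : ℕ, 0 < n ∧
    ∀ q k : ℕ, q + k = d → ∀ (K L : Type) [Field K] [Field L] [Algebra ℂ K] [Algebra ℂ L]
      [Algebra K L] [IsScalarTower ℂ K L] (x : Fin (q + 1) → L) (z : Fin k → L)
      (g : MvPolynomial (Fin k) ℂ) (b : Fin k → ℚ) (G : Subgroup (L ≃ₐ[ℂ] L))
      (A : Subalgebra ℂ K), Q.IsQuotient x z g b G A →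
    ∀ ω : ⋀[K]^(q + k) (Ω[K⁄ℂ]), ω ≠ 0 → ∀ B : QDivisor A,
    (∀ h : L, IsPullback ω (h • ((∏ l, Fin.tail x l)⁻¹ • wedgeD (q + k)
        (Fin.append (Fin.tail x) z))) →
      ∀ (u : AddValuation K (WithTop ℤ)) (p : Ideal A) (m : ℤ) (w : AddValuation L (WithTop ℤ))
        (e : ℕ), IsPrimeDivisorOn A (q + k) u p → FormOrder (q + k) u ω m → 0 < e →
        (∃ f, w f = 1) → (∀ f : K, w (algebraMap K L f) = e • u f) →
        (e : ℚ) * (m + B.coeff p) = ov w h + ∑ j, b j * ov w (z j)) →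
    IsEpsLC (q + k) ω B ε → StrongCompl (q + k) ω B n := by
  classical
  have key : ∀ q k : ℕ, ∃ n : ℕ, 0 < n ∧ (q + k = d →
      ∀ (K L : Type) [Field K] [Field L] [Algebra ℂ K] [Algebra ℂ L]
      [Algebra K L] [IsScalarTower ℂ K L] (x : Fin (q + 1) → L) (z : Fin k → L)
      (g : MvPolynomial (Fin k) ℂ) (b : Fin k → ℚ) (G : Subgroup (L ≃ₐ[ℂ] L))
      (A : Subalgebra ℂ K), Q.IsQuotient x z g b G A →
    ∀ ω : ⋀[K]^(q + k) (Ω[K⁄ℂ]), ω ≠ 0 → ∀ B : QDivisor A,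
    (∀ h : L, IsPullback ω (h • ((∏ l, Fin.tail x l)⁻¹ • wedgeD (q + k)
        (Fin.append (Fin.tail x) z))) →
      ∀ (u : AddValuation K (WithTop ℤ)) (p : Ideal A) (m : ℤ) (w : AddValuation L (WithTop ℤ))
        (e : ℕ), IsPrimeDivisorOn A (q + k) u p → FormOrder (q + k) u ω m → 0 < e →
        (∃ f, w f = 1) → (∀ f : K, w (algebraMap K L f) = e • u f) →
        (e : ℚ) * (m + B.coeff p) = ov w h + ∑ j, b j * ov w (z j)) →
    IsEpsLC (q + k) ω B ε → StrongCompl (q + k) ω B n) := by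
    intro q k
    by_cases h : q + k = d
    · obtain ⟨n, hn, h1⟩ := Abs.result_qk_strong q k (by omega) ε hε
      exact ⟨n, hn, fun _ => h1⟩
    · exact ⟨1, one_pos, fun h' => absurd h' h⟩
  choose N hN hkey using key
  refine ⟨∏ p ∈ Finset.HasAntidiagonal.antidiagonal d, N p.1 p.2,
    Finset.prod_pos fun p _ => hN _ _, ?_⟩
  intro q k hqk K L _ _ _ _ _ _ x z g b G A H ω hω B hcrep hlc
  have h1 := hkey q k hqk K L x z g b G A H ω hω B hcrep hlc
  have hmem : (q, k) ∈ Finset.HasAntidiagonal.antidiagonal d :=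
    Finset.HasAntidiagonal.mem_antidiagonal.mpr hqk
  rw [← Finset.mul_prod_erase _ _ hmem]
  exact h1.mul (Finset.prod_pos fun p _ => hN _ _)

end Vale.Agent.P283
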